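import Mathlib

/-!
# Elementary bounds for the digamma function

* `P026.H725.tendsto_digamma` : `log n - ∑_{j ≤ n} 1/(z+j) → ψ(z)` for `Re z > 0`.
* `P026.H725.norm_digamma_sub_log_le` : `‖ψ(z) - log z‖ ≤ 18` for `Re z ≥ 1/4`.
* `P026.H725.im_digamma_nonneg`, `P026.H725.im_digamma_ge`.
-/

open Complex Filter Metric Set MeasureTheory
open scoped Topology Real Nat

namespace P026.H725

/-- Pointwise convergence of locally bounded holomorphic functions gives convergence of the
derivatives. -/
lemma tendsto_deriv_of_bounded {F : ℕ → ℂ → ℂ} {f : ℂ → ℂ} {U : Set ℂ} (hU : IsOpen U)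
    {z : ℂ} {r : ℝ} (hr : 0 < r) (hzr : closedBall z r ⊆ U)
    (hF : ∀ᶠ n in atTop, DifferentiableOn ℂ (F n) U) (hf : DifferentiableOn ℂ f U) {M : ℝ}
    (hM : ∀ᶠ n in atTop, ∀ w ∈ sphere z r, ‖F n w‖ ≤ M)
    (hlim : ∀ w ∈ sphere z r, Tendsto (fun n => F n w) atTop (𝓝 (f w))) :
    Tendsto (fun n => deriv (F n) z) atTop (𝓝 (deriv f z)) := by
  have h1 : ∀ᶠ n in atTop, cderiv r (F n) z = deriv (F n) z := by
    filter_upwards [hF] with n hn
    exact cderiv_eq_deriv hU hn hr hzr
  rw [← cderiv_eq_deriv hU hf hr hzr]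
  refine Tendsto.congr' h1 ?_
  unfold cderiv
  refine Tendsto.const_smul ?_ _
  simp only [circleIntegral]
  have hsub : sphere z r ⊆ U := sphere_subset_closedBall.trans hzr
  refine intervalIntegral.tendsto_integral_filter_of_dominated_convergence
    (fun _ => r * ((r ^ 2)⁻¹ * M)) ?_ ?_ ?_ ?_
  · filter_upwards [hF] with n hn
    have hc : Continuous (fun θ : ℝ => F n (circleMap z r θ)) := by
      refine ContinuousOn.comp_continuous (hn.continuousOn.mono hsub)
        (continuous_circleMap z r) ?_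
      intro θ
      exact circleMap_mem_sphere z hr.le θ
    have hc2 : Continuous (fun θ : ℝ => ((circleMap z r θ - z) ^ 2)⁻¹) := by
      refine Continuous.inv₀ (by fun_prop) ?_
      intro θ
      simp [hr.ne', circleMap]
    refine Continuous.aestronglyMeasurable ?_
    have : Continuous (fun θ : ℝ => deriv (circleMap z r) θ) := by
      simp only [deriv_circleMap]
      fun_prop
    exact this.smul (hc2.smul hc)
  · filter_upwards [hM] with n hn
    refine Eventually.of_forall fun θ _ => ?_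
    rw [norm_smul, norm_smul, norm_inv, norm_pow, deriv_circleMap]
    have hw : circleMap z r θ ∈ sphere z r := circleMap_mem_sphere z hr.le θ
    have h2 : ‖circleMap z r θ - z‖ = r := by
      simpa [mem_sphere_iff_norm] using hw
    rw [h2]
    have h3 : ‖circleMap 0 r θ * I‖ = r := by
      simp [abs_of_pos hr]
    rw [h3]
    gcongr
    exact hn _ hw
  · exact intervalIntegrable_const
  · refine Eventually.of_forall fun θ _ => ?_
    refine Tendsto.const_smul ?_ _
    refine Tendsto.const_smul ?_ _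
    exact hlim _ (circleMap_mem_sphere z hr.le θ)

/-- `‖GammaSeq s n‖ ≤ Γ(Re s)` for `Re s > 0`. -/
lemma norm_GammaSeq_le {s : ℂ} (hs : 0 < s.re) {n : ℕ} (hn : n ≠ 0) :
    ‖Complex.GammaSeq s n‖ ≤ Real.Gamma s.re := by
  have hn' : (0 : ℝ) < n := by exact_mod_cast Nat.pos_of_ne_zero hn
  have h1 : ‖Complex.GammaSeq s n‖ ≤ Real.GammaSeq s.re n := by
    unfold Complex.GammaSeq Real.GammaSeq
    rw [norm_div, norm_mul, norm_prod]
    have e1 : ‖(n : ℂ) ^ s‖ = (n : ℝ) ^ s.re := by
      exact Complex.norm_natCast_cpow_of_pos (Nat.pos_of_ne_zero hn) s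
    have e2 : ‖((n ! : ℕ) : ℂ)‖ = (n ! : ℝ) := by simp
    rw [e1, e2]
    have hpos : 0 < ∏ j ∈ Finset.range (n + 1), (s.re + (j : ℝ)) :=
      Finset.prod_pos fun j _ => by positivity
    refine div_le_div_of_nonneg_left (by positivity) hpos ?_
    refine Finset.prod_le_prod (fun j _ => by positivity) fun j _ => ?_
    have : (s + (j : ℂ)).re = s.re + j := by simp
    rw [← this]
    exact Complex.re_le_norm _
  refine h1.trans ?_
  have h2 : Real.GammaSeq s.re n = Real.exp (Real.BohrMollerup.logGammaSeq s.re n) := by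
    unfold Real.GammaSeq Real.BohrMollerup.logGammaSeq
    rw [Real.exp_sub, Real.exp_add, Real.exp_log (by positivity), Real.exp_sum,
      Real.rpow_def_of_pos hn', mul_comm (Real.log n)]
    congr 1
    refine Finset.prod_congr rfl fun j _ => ?_
    rw [Real.exp_log (by positivity)]
  rw [h2]
  have h3 := Real.BohrMollerup.ge_logGammaSeq (f := Real.log ∘ Real.Gamma)
    Real.convexOn_log_Gamma (x := s.re) (n := n) ?_ hs hn
  · simp only [Function.comp, Real.Gamma_one, Real.log_one, zero_add] at h3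
    calc Real.exp (Real.BohrMollerup.logGammaSeq s.re n) ≤ Real.exp (Real.log (Real.Gamma s.re)) :=
          Real.exp_le_exp.mpr h3
      _ = Real.Gamma s.re := Real.exp_log (Real.Gamma_pos_of_pos hs)
  · intro y hy
    simp only [Function.comp]
    rw [Real.Gamma_add_one hy.ne', Real.log_mul hy.ne' (Real.Gamma_pos_of_pos hy).ne', add_comm]

/-- The right half plane. -/
def RH : Set ℂ := {z : ℂ | 0 < z.re}

lemma isOpen_RH : IsOpen RH := isOpen_lt continuous_const Complex.continuous_re

lemma ne_neg_nat {z : ℂ} (hz : 0 < z.re) (m : ℕ) : z ≠ -m := by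
  intro h
  have := congrArg Complex.re h
  simp at this
  have : (0 : ℝ) ≤ m := by positivity
  linarith

lemma add_nat_ne_zero {z : ℂ} (hz : 0 < z.re) (m : ℕ) : z + m ≠ 0 := by
  intro h
  exact ne_neg_nat hz m (eq_neg_of_add_eq_zero_left h)

lemma differentiableOn_Gamma : DifferentiableOn ℂ Complex.Gamma RH := fun z hz =>
  (Complex.differentiableAt_Gamma z (fun m => ne_neg_nat hz m)).differentiableWithinAt

lemma hasDerivAt_GammaSeq {z : ℂ} (hz : 0 < z.re) {n : ℕ} (hn : n ≠ 0) :
    HasDerivAt (fun s => Complex.GammaSeq s n)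
      (Complex.GammaSeq z n *
        (Complex.log n - ∑ j ∈ Finset.range (n + 1), (z + (j : ℂ))⁻¹)) z := by
  have hn' : (n : ℂ) ≠ 0 := by exact_mod_cast hn
  unfold Complex.GammaSeq
  have h1 : HasDerivAt (fun s : ℂ => (n : ℂ) ^ s) ((n : ℂ) ^ z * Complex.log n) z := by
    have := (hasDerivAt_id z).const_cpow (c := (n : ℂ)) (Or.inl hn')
    simpa using this
  have h2 : HasDerivAt (fun s : ℂ => ∏ j ∈ Finset.range (n + 1), (s + (j : ℂ)))
      ((∏ j ∈ Finset.range (n + 1), (z + (j : ℂ))) *
        ∑ j ∈ Finset.range (n + 1), (z + (j : ℂ))⁻¹) z := by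
    have h := HasDerivAt.fun_finsetProd (u := Finset.range (n + 1))
      (f := fun (j : ℕ) (s : ℂ) => s + (j : ℂ)) (f' := fun _ => 1) (x := z)
      (fun j _ => (hasDerivAt_id z).add_const (j : ℂ))
    refine h.congr_deriv ?_
    rw [Finset.mul_sum]
    refine Finset.sum_congr rfl fun j hj => ?_
    rw [smul_eq_mul, mul_one, ← Finset.mul_prod_erase _ _ hj]
    field_simp [add_nat_ne_zero hz j]
  have hprod : (∏ j ∈ Finset.range (n + 1), (z + (j : ℂ))) ≠ 0 :=
    Finset.prod_ne_zero_iff.mpr fun j _ => add_nat_ne_zero hz j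
  have h3 := (h1.mul_const ((n ! : ℕ) : ℂ)).div h2 hprod
  refine h3.congr_deriv ?_
  field_simp

/-- **Euler's limit for the digamma function** on the right half plane. -/
theorem tendsto_digamma {z : ℂ} (hz : 0 < z.re) :
    Tendsto (fun n : ℕ => Complex.log n - ∑ j ∈ Finset.range (n + 1), (z + (j : ℂ))⁻¹) atTop
      (𝓝 (Complex.digamma z)) := by
  have hr : 0 < z.re / 2 := by positivity
  have hsub : closedBall z (z.re / 2) ⊆ RH := by
    intro w hw
    rw [mem_closedBall_iff_norm] at hw
    have := (Complex.abs_re_le_norm (w - z)).trans hw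
    rw [Complex.sub_re, abs_le] at this
    show 0 < w.re
    linarith [this.1]
  have hcont : ContinuousOn Real.Gamma (Icc (z.re / 2) (3 * z.re / 2)) := by
    intro x hx
    refine (Real.differentiableAt_Gamma ?_).continuousAt.continuousWithinAt
    intro m hm
    have h0 : (0 : ℝ) ≤ m := by positivity
    have := hx.1
    rw [hm] at this
    linarith
  obtain ⟨M, hM⟩ := (isCompact_Icc (a := z.re / 2) (b := 3 * z.re / 2)).exists_bound_of_continuousOn
    hcont
  have hderiv : Tendsto (fun n : ℕ => deriv (fun s => Complex.GammaSeq s n) z) atTop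
      (𝓝 (deriv Complex.Gamma z)) := by
    refine tendsto_deriv_of_bounded (F := fun n s => Complex.GammaSeq s n) isOpen_RH hr hsub
      ?_ differentiableOn_Gamma (M := M) ?_ ?_
    · filter_upwards [eventually_ne_atTop 0] with n hn
      exact fun w hw => (hasDerivAt_GammaSeq hw hn).differentiableAt.differentiableWithinAt
    · filter_upwards [eventually_ne_atTop 0] with n hn
      intro w hw
      have hw' := hsub (sphere_subset_closedBall hw)
      refine (norm_GammaSeq_le hw' hn).trans ?_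
      refine (le_abs_self _).trans (hM w.re ?_)
      rw [mem_sphere_iff_norm] at hw
      have := (Complex.abs_re_le_norm (w - z)).trans hw.le
      rw [Complex.sub_re, abs_le] at this
      constructor <;> linarith [this.1, this.2]
    · intro w _
      exact Complex.GammaSeq_tendsto_Gamma w
  have hne : Complex.Gamma z ≠ 0 := Complex.Gamma_ne_zero_of_re_pos hz
  have h4 := hderiv.div (Complex.GammaSeq_tendsto_Gamma z) hne
  rw [Complex.digamma_def, logDeriv_apply]
  refine h4.congr' ?_
  have hev : ∀ᶠ n in atTop, Complex.GammaSeq z n ≠ 0 :=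
    (Complex.GammaSeq_tendsto_Gamma z).eventually_ne hne
  filter_upwards [eventually_ne_atTop 0, hev] with n hn hn2
  simp only [Pi.div_apply]
  rw [(hasDerivAt_GammaSeq hz hn).deriv]
  field_simp

/-- `Im ψ(z) ≥ Σ_{j ≤ N} Im z / |z+j|²` for every `N`. -/
lemma im_digamma_ge_sum {z : ℂ} (hz : 0 < z.re) (hz' : 0 ≤ z.im) (N : ℕ) :
    ∑ j ∈ Finset.range (N + 1), z.im / Complex.normSq (z + (j : ℂ)) ≤
      (Complex.digamma z).im := by
  have h := (Complex.continuous_im.tendsto _).comp (tendsto_digamma hz)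
  refine ge_of_tendsto h ?_
  filter_upwards [eventually_ge_atTop N] with n hn
  simp only [Function.comp, Complex.sub_im, Complex.im_sum, Complex.inv_im]
  rw [← Complex.natCast_log, Complex.ofReal_im, zero_sub, ← Finset.sum_neg_distrib]
  have e : ∀ j ∈ Finset.range (n + 1), -(-(z + (j : ℂ)).im / Complex.normSq (z + (j : ℂ)))
      = z.im / Complex.normSq (z + (j : ℂ)) := by
    intro j _
    simp [neg_div]
  rw [Finset.sum_congr rfl e]
  refine Finset.sum_le_sum_of_subset_of_nonneg ?_ ?_
  · intro j hj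
    simp only [Finset.mem_range] at hj ⊢
    omega
  · intro j _ _
    exact div_nonneg hz' (Complex.normSq_nonneg _)

/-- `Im ψ ≥ 0` in the closed first quadrant (right half plane, `Im z ≥ 0`). -/
theorem im_digamma_nonneg {z : ℂ} (hz : 0 < z.re) (hz' : 0 ≤ z.im) :
    0 ≤ (Complex.digamma z).im := by
  refine le_trans ?_ (im_digamma_ge_sum hz hz' 0)
  exact Finset.sum_nonneg fun j _ => div_nonneg hz' (Complex.normSq_nonneg _)

/-- `Im ψ(z) ≥ 1/98` if `0 < Re z ≤ 3` and `Im z ≥ 1/2`. -/
theorem im_digamma_ge {z : ℂ} (hz : 0 < z.re) (hz3 : z.re ≤ 3) (hz' : 1 / 2 ≤ z.im) :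
    1 / 98 ≤ (Complex.digamma z).im := by
  have hy : 0 < z.im := by linarith
  refine le_trans ?_ (im_digamma_ge_sum hz hy.le ⌊z.im⌋₊)
  have h1 : ∀ j ∈ Finset.range (⌊z.im⌋₊ + 1),
      z.im / (2 * (3 + z.im) ^ 2) ≤ z.im / Complex.normSq (z + (j : ℂ)) := by
    intro j hj
    rw [Finset.mem_range, Nat.lt_succ_iff] at hj
    have hj' : (j : ℝ) ≤ z.im := by
      exact (Nat.cast_le.mpr hj).trans (Nat.floor_le hy.le)
    have hj0 : (0 : ℝ) ≤ j := by positivity
    refine div_le_div_of_nonneg_left hy.le ?_ ?_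
    · rw [Complex.normSq_pos]
      exact add_nat_ne_zero hz j
    · rw [Complex.normSq_apply]
      simp only [Complex.add_re, Complex.natCast_re, Complex.add_im, Complex.natCast_im, add_zero]
      nlinarith
  refine le_trans ?_ (Finset.sum_le_sum h1)
  rw [Finset.sum_const, Finset.card_range, nsmul_eq_mul]
  have h2 : z.im ≤ ((⌊z.im⌋₊ + 1 : ℕ) : ℝ) := by
    push_cast
    exact (Nat.lt_floor_add_one z.im).le
  calc (1 : ℝ) / 98 ≤ z.im * (z.im / (2 * (3 + z.im) ^ 2)) := by
        rw [← mul_div_assoc, div_le_div_iff₀ (by norm_num) (by positivity)]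
        nlinarith
    _ ≤ _ := by gcongr

/-- One Euler-Maclaurin step. -/
lemma norm_log_step_le {w : ℂ} (hw : 0 < w.re) :
    ‖Complex.log (w + 1) - Complex.log w - w⁻¹‖ ≤ 1 / w.re ^ 2 := by
  have hw0 : w ≠ 0 := by
    rintro rfl
    simp at hw
  have key := norm_image_sub_le_of_norm_deriv_le_segment_01'
    (f := fun t : ℝ => Complex.log (w + t) - t * w⁻¹)
    (f' := fun t : ℝ => (w + t)⁻¹ - w⁻¹) (C := 1 / w.re ^ 2) ?_ ?_
  · simp only [Complex.ofReal_one, one_mul, Complex.ofReal_zero, add_zero, zero_mul, sub_zero]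
      at key
    have e : Complex.log (w + 1) - Complex.log w - w⁻¹ =
        Complex.log (w + 1) - w⁻¹ - Complex.log w := by ring
    rw [e]
    exact key
  · intro t ht
    refine HasDerivAt.hasDerivWithinAt ?_
    have hre : 0 < (w + (t : ℂ)).re := by
      simp only [Complex.add_re, Complex.ofReal_re]
      linarith [ht.1]
    have h1 : HasDerivAt (fun t : ℝ => w + (t : ℂ)) 1 t :=
      (Complex.ofRealCLM.hasDerivAt (x := t)).const_add w
    have h2 := h1.clog_real (Or.inl hre)
    have h3 : HasDerivAt (fun t : ℝ => (t : ℂ) * w⁻¹) (1 * w⁻¹) t :=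
      (Complex.ofRealCLM.hasDerivAt (x := t)).mul_const _
    refine (h2.sub h3).congr_deriv ?_
    rw [one_div, one_mul]
  · intro t ht
    have hre : 0 < (w + (t : ℂ)).re := by
      simp only [Complex.add_re, Complex.ofReal_re]
      linarith [ht.1]
    have hne : w + (t : ℂ) ≠ 0 := by
      intro h
      rw [h] at hre
      simp at hre
    have e : (w + (t : ℂ))⁻¹ - w⁻¹ = -(t : ℂ) / (w * (w + t)) := by
      field_simp
      ring
    rw [e, norm_div, norm_neg, norm_mul]
    have h1 : ‖(t : ℂ)‖ ≤ 1 := by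
      rw [Complex.norm_real, Real.norm_eq_abs, abs_of_nonneg ht.1]
      exact ht.2.le
    have h2 : w.re ≤ ‖w‖ := Complex.re_le_norm w
    have h3 : w.re ≤ ‖w + (t : ℂ)‖ := by
      refine le_trans ?_ (Complex.re_le_norm _)
      simp only [Complex.add_re, Complex.ofReal_re]
      linarith [ht.1]
    rw [pow_two]
    gcongr

lemma sum_inv_sq_le {a : ℝ} (ha : 0 < a) (n : ℕ) :
    ∑ j ∈ Finset.range (n + 1), 1 / (a + j) ^ 2 ≤ 1 / a ^ 2 + 1 / a - 1 / (a + n) := by
  induction n with
  | zero => simp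
  | succ n ih =>
    rw [Finset.sum_range_succ]
    have h1 : (0 : ℝ) < a + n := by positivity
    have h2 : 1 / (a + ((n + 1 : ℕ) : ℝ)) ^ 2 ≤ 1 / (a + n) - 1 / (a + ((n + 1 : ℕ) : ℝ)) := by
      push_cast
      have h3 : (0 : ℝ) < a + (n + 1) := by positivity
      rw [div_sub_div _ _ h1.ne' h3.ne', div_le_div_iff₀ (by positivity) (by positivity)]
      nlinarith
    linarith

lemma tendsto_log_sub (z : ℂ) (hz : 0 < z.re) :
    Tendsto (fun n : ℕ => Complex.log (z + (n + 1 : ℕ)) - Complex.log n) atTop (𝓝 0) := by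
  have h1 : Tendsto (fun n : ℕ => (z + (n + 1 : ℕ)) / (n : ℂ)) atTop (𝓝 1) := by
    have h2 : Tendsto (fun n : ℕ => 1 + (z + 1) * (n : ℂ)⁻¹) atTop (𝓝 (1 + (z + 1) * 0)) :=
      tendsto_const_nhds.add (tendsto_const_nhds.mul (tendsto_inv_atTop_nhds_zero_nat (𝕜 := ℂ)))
    rw [mul_zero, add_zero] at h2
    refine h2.congr' ?_
    filter_upwards [eventually_ne_atTop 0] with n hn
    have hn' : (n : ℂ) ≠ 0 := by exact_mod_cast hn
    push_cast
    field_simp
    ring
  have h3 := (continuousAt_clog (x := 1) (by simp)).tendsto.comp h1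
  rw [Complex.log_one] at h3
  refine h3.congr' ?_
  filter_upwards [eventually_ne_atTop 0] with n hn
  have hn' : (n : ℂ) ≠ 0 := by exact_mod_cast hn
  have hn0 : (0 : ℝ) < n := by exact_mod_cast Nat.pos_of_ne_zero hn
  have hne : (z + (n + 1 : ℕ)) / (n : ℂ) ≠ 0 :=
    div_ne_zero (add_nat_ne_zero hz (n + 1)) hn'
  have h4 := Complex.log_ofReal_mul hn0 hne
  simp only [Function.comp]
  rw [Complex.ofReal_natCast, mul_div_cancel₀ _ hn', Complex.natCast_log] at h4
  rw [h4]
  ring

/-- `‖ψ(z) - log z‖ ≤ 1/a² + 1/a` for `Re z ≥ a > 0`. -/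
theorem norm_digamma_sub_log_le' {z : ℂ} {a : ℝ} (ha : 0 < a) (hz : a ≤ z.re) :
    ‖Complex.digamma z - Complex.log z‖ ≤ 1 / a ^ 2 + 1 / a := by
  have hz0 : 0 < z.re := lt_of_lt_of_le ha hz
  have h1 := ((tendsto_digamma hz0).sub_const (Complex.log z)).add (tendsto_log_sub z hz0)
  rw [add_zero] at h1
  refine le_of_tendsto h1.norm (Eventually.of_forall fun n => ?_)
  have e : Complex.log n - ∑ j ∈ Finset.range (n + 1), (z + (j : ℂ))⁻¹ - Complex.log z +
      (Complex.log (z + (n + 1 : ℕ)) - Complex.log n) =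
      ∑ j ∈ Finset.range (n + 1),
        (Complex.log ((z + j) + 1) - Complex.log (z + j) - (z + (j : ℂ))⁻¹) := by
    rw [Finset.sum_sub_distrib]
    have h2 := Finset.sum_range_sub (fun j : ℕ => Complex.log (z + j)) (n + 1)
    have h3 : ∑ j ∈ Finset.range (n + 1), (Complex.log ((z + j) + 1) - Complex.log (z + j)) =
        Complex.log (z + (n + 1 : ℕ)) - Complex.log z := by
      simpa [add_assoc] using h2
    rw [h3]
    ring
  rw [e]
  refine (norm_sum_le _ _).trans ?_
  have h4 : ∀ j ∈ Finset.range (n + 1),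
      ‖Complex.log ((z + j) + 1) - Complex.log (z + j) - (z + (j : ℂ))⁻¹‖ ≤
        1 / (a + j) ^ 2 := by
    intro j _
    have hre : 0 < (z + (j : ℂ)).re := by
      simp only [Complex.add_re, Complex.natCast_re]
      positivity
    refine (norm_log_step_le hre).trans ?_
    have : a + j ≤ (z + (j : ℂ)).re := by
      simp only [Complex.add_re, Complex.natCast_re]
      linarith
    gcongr
  refine (Finset.sum_le_sum h4).trans ((sum_inv_sq_le ha n).trans ?_)
  have : (0 : ℝ) ≤ 1 / (a + n) := by positivity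
  linarith

/-- `‖ψ(z) - log z‖ ≤ 20` for `Re z ≥ 1/4`. -/
theorem norm_digamma_sub_log_le {z : ℂ} (hz : 1 / 4 ≤ z.re) :
    ‖Complex.digamma z - Complex.log z‖ ≤ 20 := by
  have := norm_digamma_sub_log_le' (a := 1 / 4) (by norm_num) hz
  norm_num at this
  exact this

end P026.H725
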