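import Mathlib

/-!
# A Gauss–Lucas theorem for entire functions with a functional equation

Entire functions `F` with `|F(1 - conj s)| = |F(s)|`, without zeros in `Re s ≥ 1` and of regular
growth in the half plane `Re s > 1`; the class is closed under differentiation.
-/

open Complex Filter Metric Set Topology
open scoped ComplexConjugate

namespace P026.H725

/-- elementary step in Harnack's inequality -/
lemma harnack_alg {A B : ℂ} {t : ℝ} (ht : 0 ≤ t) (ht1 : t < 1) (hA : 0 ≤ A.re) (hB : 0 ≤ B.re)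
    (h : ‖A - B‖ ≤ t * ‖A + conj B‖) : B.re * (1 - t) ≤ A.re * (1 + t) := by
  have h1 : ‖A - B‖ ^ 2 ≤ t ^ 2 * ‖A + conj B‖ ^ 2 := by
    rw [← mul_pow]
    exact pow_le_pow_left₀ (norm_nonneg _) h 2
  rw [Complex.sq_norm, Complex.sq_norm, Complex.normSq_apply, Complex.normSq_apply] at h1
  simp only [Complex.sub_re, Complex.sub_im, Complex.add_re, Complex.add_im, Complex.conj_re,
    Complex.conj_im] at h1
  have h2 : (A.re - B.re) ^ 2 ≤ (t * (A.re + B.re)) ^ 2 := by
    have h3 : 0 ≤ (1 - t ^ 2) * (A.im - B.im) ^ 2 := by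
      have : 0 ≤ 1 - t ^ 2 := by nlinarith
      positivity
    nlinarith
  have h4 := abs_le_of_sq_le_sq' h2 (by positivity)
  linarith [h4.1]

lemma half_map {z : ℂ} (hz : ‖z‖ < 1) : 1 < (2 / (1 - z)).re := by
  have h0 : 1 - z ≠ 0 := by
    intro h
    rw [sub_eq_zero] at h
    rw [← h] at hz
    simp at hz
  have h1 : 0 < Complex.normSq (1 - z) := Complex.normSq_pos.2 h0
  have h2 : (2 / (1 - z)).re = 2 * (1 - z.re) / Complex.normSq (1 - z) := by
    rw [Complex.div_re]
    simp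
  rw [h2, lt_div_iff₀ h1, one_mul]
  have h3 : Complex.normSq z < 1 := by
    rw [← Complex.sq_norm]
    have := norm_nonneg z
    nlinarith
  rw [Complex.normSq_apply] at h3 ⊢
  simp only [Complex.sub_re, Complex.sub_im, Complex.one_re, Complex.one_im]
  nlinarith

/-- **Harnack's inequality** in the half plane `Re w > 1`. -/
theorem harnack_half {p : ℂ → ℂ} (hp : DifferentiableOn ℂ p {w | 1 < w.re})
    (hre : ∀ w : ℂ, 1 < w.re → 0 ≤ (p w).re) {w : ℂ} (hw : 1 < w.re) :
    (p 2).re * ((w.re - 1) / ‖w‖ ^ 2) ≤ (p w).re := by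
  have h2 : (1:ℝ) < (2:ℂ).re := by norm_num
  rcases (hre 2 h2).eq_or_lt with h0 | h0
  · rw [← h0, zero_mul]
    exact hre w hw
  set f : ℂ → ℂ := fun z => (p (2 / (1 - z)) - p 2) / (p (2 / (1 - z)) + conj (p 2)) with hf
  have hden : ∀ z : ℂ, ‖z‖ < 1 → p (2 / (1 - z)) + conj (p 2) ≠ 0 := by
    intro z hz h
    have h3 := congrArg Complex.re h
    simp only [Complex.add_re, Complex.conj_re, Complex.zero_re] at h3
    have := hre _ (half_map hz)
    linarith
  have hne : ∀ z : ℂ, ‖z‖ < 1 → 1 - z ≠ 0 := by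
    intro z hz h
    rw [sub_eq_zero] at h
    rw [← h] at hz
    simp at hz
  have hopen : IsOpen {w : ℂ | 1 < w.re} := isOpen_lt continuous_const Complex.continuous_re
  have hdiff : DifferentiableOn ℂ f (ball 0 1) := by
    intro z hz
    rw [mem_ball_zero_iff] at hz
    have h4 : DifferentiableAt ℂ (fun z : ℂ => 2 / (1 - z)) z :=
      (differentiableAt_const _).div ((differentiableAt_const _).sub differentiableAt_id) (hne z hz)
    have h5 : DifferentiableAt ℂ p (2 / (1 - z)) :=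
      (hp _ (half_map hz)).differentiableAt (hopen.mem_nhds (half_map hz))
    have h6 : DifferentiableAt ℂ (fun z : ℂ => p (2 / (1 - z))) z :=
      DifferentiableAt.comp (f := fun z : ℂ => 2 / (1 - z)) z h5 h4
    exact ((h6.sub_const _).div (h6.add_const _) (hden z hz)).differentiableWithinAt
  have hmaps : MapsTo f (ball 0 1) (closedBall 0 1) := by
    intro z hz
    rw [mem_ball_zero_iff] at hz
    rw [mem_closedBall_zero_iff, hf]
    simp only
    rw [norm_div, div_le_one (norm_pos_iff.2 (hden z hz))]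
    have h7 := hre _ (half_map hz)
    set A := p (2 / (1 - z))
    have h8 : ‖A - p 2‖ ^ 2 ≤ ‖A + conj (p 2)‖ ^ 2 := by
      rw [Complex.sq_norm, Complex.sq_norm, Complex.normSq_apply, Complex.normSq_apply]
      simp only [Complex.sub_re, Complex.sub_im, Complex.add_re, Complex.add_im, Complex.conj_re,
        Complex.conj_im]
      nlinarith
    exact (pow_le_pow_iff_left₀ (norm_nonneg _) (norm_nonneg _) two_ne_zero).1 h8
  have hf0 : f 0 = 0 := by simp [hf]
  have hw0 : w ≠ 0 := by rintro rfl; simp at hw; linarith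
  set z : ℂ := (w - 2) / w with hz
  have hwn : 0 < ‖w‖ := norm_pos_iff.2 hw0
  have hsq : ‖w‖ ^ 2 - ‖w - 2‖ ^ 2 = 4 * (w.re - 1) := by
    rw [Complex.sq_norm, Complex.sq_norm, Complex.normSq_apply, Complex.normSq_apply]
    simp
    ring
  have hlt : ‖w - 2‖ < ‖w‖ := by
    have : ‖w - 2‖ ^ 2 < ‖w‖ ^ 2 := by linarith
    exact lt_of_pow_lt_pow_left₀ 2 (norm_nonneg _) this
  have hz1 : ‖z‖ < 1 := by
    rw [hz, norm_div, div_lt_one hwn]
    exact hlt
  have hwz : 2 / (1 - z) = w := by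
    have h9 : 1 - z = 2 / w := by rw [hz]; field_simp; ring
    rw [h9]; field_simp
  have h10 := Complex.norm_le_norm_of_mapsTo_ball hdiff hmaps hf0 hz1
  have h11 : ‖p w - p 2‖ ≤ ‖z‖ * ‖p w + conj (p 2)‖ := by
    have h12 := hden z hz1
    rw [hf] at h10
    simp only at h10
    rw [hwz] at h10 h12
    rwa [norm_div, div_le_iff₀ (norm_pos_iff.2 h12)] at h10
  have h13 := harnack_alg (norm_nonneg z) hz1 (hre w hw) (hre 2 h2) h11
  -- `(Re w - 1) (1 + t) ≤ ‖w‖² (1 - t)`
  set t := ‖z‖ with ht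
  have htw : t * ‖w‖ = ‖w - 2‖ := by
    rw [ht, hz, norm_div, div_mul_cancel₀ _ hwn.ne']
  have h14 : (w.re - 1) / ‖w‖ ^ 2 * (1 + t) ≤ 1 - t := by
    rw [div_mul_eq_mul_div, div_le_iff₀ (by positivity)]
    have h15 : w.re - 1 = (1 - t) * (1 + t) * ‖w‖ ^ 2 / 4 := by
      have : (1 - t) * (1 + t) * ‖w‖ ^ 2 = ‖w‖ ^ 2 - (t * ‖w‖) ^ 2 := by ring
      rw [this, htw, hsq]
      ring
    rw [h15]
    have h16 : 0 ≤ 1 - t := by linarith
    have h17 : (1 + t) ^ 2 ≤ 4 := by nlinarith [norm_nonneg z]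
    have h18 : 0 ≤ (1 - t) * ‖w‖ ^ 2 := by positivity
    nlinarith
  have h19 : 0 < 1 + t := by have := norm_nonneg z; linarith
  have h20 : (p 2).re * ((w.re - 1) / ‖w‖ ^ 2) * (1 + t) ≤ (p w).re * (1 + t) := by
    calc (p 2).re * ((w.re - 1) / ‖w‖ ^ 2) * (1 + t)
        = (p 2).re * ((w.re - 1) / ‖w‖ ^ 2 * (1 + t)) := by ring
      _ ≤ (p 2).re * (1 - t) := mul_le_mul_of_nonneg_left h14 h0.le
      _ ≤ (p w).re * (1 + t) := h13
  exact le_of_mul_le_mul_right h20 h19

/-- a function with nonnegative real part on the half plane is either constant or has positive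
real part at `2` -/
theorem const_or_pos {p : ℂ → ℂ} (hp : DifferentiableOn ℂ p {w | 1 < w.re})
    (hre : ∀ w : ℂ, 1 < w.re → 0 ≤ (p w).re) :
    (∃ c : ℂ, c.re = 0 ∧ ∀ w : ℂ, 1 < w.re → p w = c) ∨ 0 < (p 2).re := by
  have h2 : (1:ℝ) < (2:ℂ).re := by norm_num
  rcases (hre 2 h2).eq_or_lt with h0 | h0
  swap
  · exact Or.inr h0
  left
  have hopen : IsOpen {w : ℂ | 1 < w.re} := isOpen_lt continuous_const Complex.continuous_re
  have hconv : Convex ℝ {w : ℂ | 1 < w.re} := convex_halfSpace_re_gt 1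
  have hA : AnalyticOnNhd ℂ p {w : ℂ | 1 < w.re} := hp.analyticOnNhd hopen
  rcases hA.is_constant_or_isOpen hconv.isPreconnected with ⟨c, hc⟩ | h
  · refine ⟨c, ?_, hc⟩
    rw [← hc 2 h2, ← h0]
  · exfalso
    have h3 := h _ subset_rfl hopen
    have h4 : p 2 ∈ p '' {w : ℂ | 1 < w.re} := ⟨2, h2, rfl⟩
    obtain ⟨ε, hε, hball⟩ := Metric.isOpen_iff.1 h3 _ h4
    have h5 : p 2 - (ε/2 : ℝ) ∈ ball (p 2) ε := by
      rw [mem_ball, dist_eq_norm]
      have : p 2 - ((ε/2 : ℝ) : ℂ) - p 2 = -((ε/2 : ℝ) : ℂ) := by ring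
      rw [this, norm_neg, Complex.norm_real, Real.norm_eq_abs, abs_of_pos (by linarith)]
      linarith
    obtain ⟨w, hw, hw2⟩ := hball h5
    have h6 := hre w hw
    rw [hw2, Complex.sub_re, Complex.ofReal_re, ← h0] at h6
    linarith

/-- the class of entire functions to which the Gauss–Lucas theorem applies -/
structure GLClass (F : ℂ → ℂ) : Prop where
  diff : Differentiable ℂ F
  symm : ∃ c : ℂ, ‖c‖ = 1 ∧ ∀ s, F (1 - conj s) = c * conj (F s)
  nz : ∀ s : ℂ, 1 ≤ s.re → F s ≠ 0
  grow : ∀ a r : ℝ, 1 < a → 0 ≤ r → ∃ (C : ℝ) (N : ℕ), 0 ≤ C ∧ ∀ w u : ℂ, a ≤ w.re → ‖u‖ ≤ r →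
    ‖F (w + u)‖ ≤ C * (1 + ‖w‖) ^ N * ‖F w‖
  big : ∀ K : ℝ, ∀ N : ℕ, ∃ x : ℝ, 1 ≤ x ∧ K * x ^ N < ‖F x‖

namespace GLClass

variable {F : ℂ → ℂ}

lemma norm_symm (h : GLClass F) (s : ℂ) : ‖F (1 - conj s)‖ = ‖F s‖ := by
  obtain ⟨c, hc, h1⟩ := h.symm
  rw [h1, norm_mul, hc, one_mul, Complex.norm_conj]

lemma pow_le_exp (N : ℕ) {δ x : ℝ} (hδ : 0 < δ) (hx : 0 ≤ x) :
    x ^ N ≤ (N.factorial * (1/δ) ^ N) * Real.exp (δ * x) := by
  have h1 := Real.pow_div_factorial_le_exp (δ * x) (by positivity) N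
  rw [div_le_iff₀ (by positivity)] at h1
  have h2 : x ^ N = (1/δ) ^ N * (δ * x) ^ N := by
    rw [← mul_pow]; congr 1; field_simp
  rw [h2]
  calc (1/δ) ^ N * (δ * x) ^ N ≤ (1/δ) ^ N * (Real.exp (δ * x) * N.factorial) := by gcongr
    _ = _ := by ring

/-- the reflection principle -/
theorem reflect (h : GLClass F) {a : ℝ} (ha : 1 < a) {w : ℂ} (hw : a ≤ w.re) :
    ‖F (w - ((2 * a - 1 : ℝ) : ℂ))‖ ≤ ‖F w‖ := by
  set b : ℂ := ((2 * a - 1 : ℝ) : ℂ) with hb
  have hbn : ‖-b‖ ≤ 2 * a - 1 := by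
    rw [norm_neg, hb, Complex.norm_real, Real.norm_eq_abs, abs_of_pos (by linarith)]
  obtain ⟨C, N, hC, hgr⟩ := h.grow a (2 * a - 1) ha (by linarith)
  have hQ : ∀ z : ℂ, a ≤ z.re → ‖F (z - b) / F z‖ ≤ C * (1 + ‖z‖) ^ N := by
    intro z hz
    have h1 := hgr z (-b) hz hbn
    rw [← sub_eq_add_neg] at h1
    rw [norm_div, div_le_iff₀ (norm_pos_iff.2 (h.nz z (by linarith)))]
    exact h1
  -- for every `δ > 0`
  have key : ∀ δ : ℝ, 0 < δ → ‖F (w - b) / F w‖ ≤ Real.exp (δ * (w.re - a)) := by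
    intro δ hδ
    set f : ℂ → ℂ := fun z => Complex.exp (-(δ : ℂ) * z) * (F (z + a - b) / F (z + a)) with hf
    have hfn : ∀ z : ℂ, 0 ≤ z.re → ‖f z‖ ≤ Real.exp (-δ * z.re) * (C * (1 + ‖z + a‖) ^ N) := by
      intro z hz
      rw [hf]
      simp only
      rw [norm_mul, Complex.norm_exp]
      have e1 : (-(δ : ℂ) * z).re = -δ * z.re := by simp
      rw [e1]
      exact mul_le_mul_of_nonneg_left (hQ _ (by simp; exact hz)) (Real.exp_pos _).le
    have hd : DiffContOnCl ℂ f {z | 0 < z.re} := by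
      apply DifferentiableOn.diffContOnCl
      rw [Complex.closure_setOfPred_lt_re]
      intro z hz
      have hz' : 0 ≤ z.re := hz
      have h1 : F (z + a) ≠ 0 := h.nz _ (by simp; linarith)
      have h2 : DifferentiableAt ℂ (fun z : ℂ => F (z + a - b)) z :=
        (h.diff _).comp z ((differentiableAt_id.add_const _).sub_const _)
      have h3 : DifferentiableAt ℂ (fun z : ℂ => F (z + a)) z :=
        (h.diff _).comp z (differentiableAt_id.add_const _)
      have h4 : DifferentiableAt ℂ (fun z : ℂ => Complex.exp (-(δ : ℂ) * z)) z := by fun_prop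
      exact (h4.mul (h2.div h3 h1)).differentiableWithinAt
    have hza : ∀ z : ℂ, ‖z + a‖ ≤ ‖z‖ + a := by
      intro z
      refine (norm_add_le _ _).trans ?_
      rw [Complex.norm_real, Real.norm_eq_abs, abs_of_pos (by linarith)]
    have hexp : ∃ c < (2 : ℝ), ∃ B,
        f =O[Bornology.cobounded ℂ ⊓ 𝓟 {z | 0 < z.re}] fun z => Real.exp (B * ‖z‖ ^ c) := by
      refine ⟨1, by norm_num, 1, ?_⟩
      refine Asymptotics.IsBigO.of_bound (C * ((N.factorial * (1/1) ^ N) * Real.exp (1 + a))) ?_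
      refine Filter.eventually_inf_principal.2 (Eventually.of_forall fun z hz => ?_)
      have hz' : 0 < z.re := hz
      refine (hfn z hz'.le).trans ?_
      rw [Real.norm_eq_abs, abs_of_pos (Real.exp_pos _), Real.rpow_one, one_mul]
      have h1 : Real.exp (-δ * z.re) ≤ 1 := by
        rw [Real.exp_le_one_iff]
        nlinarith
      have h2 : (1 + ‖z + a‖) ^ N ≤ (N.factorial * (1/1) ^ N) * Real.exp (1 * (1 + a + ‖z‖)) := by
        refine le_trans ?_ (pow_le_exp N one_pos (by have := norm_nonneg z; linarith))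
        have := hza z
        exact pow_le_pow_left₀ (by positivity) (by linarith) N
      have h3 : Real.exp (1 * (1 + a + ‖z‖)) = Real.exp (1 + a) * Real.exp ‖z‖ := by
        rw [one_mul, Real.exp_add]
      calc Real.exp (-δ * z.re) * (C * (1 + ‖z + a‖) ^ N)
          ≤ 1 * (C * ((N.factorial * (1/1) ^ N) * Real.exp (1 * (1 + a + ‖z‖)))) := by gcongr
        _ = _ := by rw [h3]; ring
    have hre : Tendsto (fun x : ℝ => f x) atTop (𝓝 0) := by
      rw [tendsto_zero_iff_norm_tendsto_zero]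
      have h1 : Tendsto (fun x : ℝ => C * ((N.factorial * (1/(δ/2)) ^ N) * Real.exp (δ/2 * (1 + a))) *
          Real.exp (-(δ/2 * x))) atTop (𝓝 0) := by
        have h2 : Tendsto (fun x : ℝ => Real.exp (-(δ/2 * x))) atTop (𝓝 0) :=
          Real.tendsto_exp_neg_atTop_nhds_zero.comp
            (tendsto_id.const_mul_atTop (by positivity))
        simpa using h2.const_mul (C * ((N.factorial * (1/(δ/2)) ^ N) * Real.exp (δ/2 * (1 + a))))
      refine tendsto_of_tendsto_of_tendsto_of_le_of_le' tendsto_const_nhds h1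
        (Eventually.of_forall fun x => norm_nonneg _) ?_
      filter_upwards [eventually_ge_atTop (0:ℝ)] with x hx
      refine (hfn x (by simpa using hx)).trans ?_
      have h3 : (1 + ‖(x : ℂ) + a‖) ^ N ≤
          (N.factorial * (1/(δ/2)) ^ N) * Real.exp (δ/2 * (1 + a + x)) := by
        refine le_trans ?_ (pow_le_exp N (by positivity) (by linarith))
        have h4 := hza x
        rw [Complex.norm_real, Real.norm_eq_abs, abs_of_nonneg hx] at h4
        exact pow_le_pow_left₀ (by positivity) (by linarith) N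
      have h5 : Real.exp (δ/2 * (1 + a + x)) = Real.exp (δ/2 * (1 + a)) * Real.exp (δ/2 * x) := by
        rw [← Real.exp_add]; ring_nf
      have h6 : Real.exp (-δ * (x : ℂ).re) = Real.exp (-(δ/2 * x)) * Real.exp (-(δ/2 * x)) := by
        rw [← Real.exp_add, Complex.ofReal_re]; ring_nf
      have h7 : Real.exp (-(δ/2 * x)) * Real.exp (δ/2 * x) = 1 := by
        rw [← Real.exp_add]; simp
      calc Real.exp (-δ * (x : ℂ).re) * (C * (1 + ‖(x : ℂ) + a‖) ^ N)
          ≤ Real.exp (-δ * (x : ℂ).re) *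
            (C * ((N.factorial * (1/(δ/2)) ^ N) * Real.exp (δ/2 * (1 + a + x)))) := by gcongr
        _ = C * ((N.factorial * (1/(δ/2)) ^ N) * Real.exp (δ/2 * (1 + a))) *
          Real.exp (-(δ/2 * x)) * (Real.exp (-(δ/2 * x)) * Real.exp (δ/2 * x)) := by
            rw [h5, h6]; ring
        _ = _ := by rw [h7, mul_one]
    have him : ∀ x : ℝ, ‖f (x * I)‖ ≤ 1 := by
      intro x
      rw [hf]
      simp only
      have e1 : (-(δ : ℂ) * (x * I)).re = 0 := by simp
      rw [norm_mul, Complex.norm_exp, e1, Real.exp_zero, one_mul, norm_div]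
      have e2 : (x : ℂ) * I + a - b = 1 - conj ((x : ℂ) * I + a) := by
        rw [hb]
        simp
        ring
      rw [e2, h.norm_symm]
      rw [div_self (norm_ne_zero_iff.2 (h.nz _ (by simp; linarith)))]
    have h1 := PhragmenLindelof.right_half_plane_of_tendsto_zero_on_real hd hexp hre him
      (z := w - a) (by simp; linarith)
    rw [hf] at h1
    simp only at h1
    rw [norm_mul, Complex.norm_exp] at h1
    have e1 : (-(δ : ℂ) * (w - a)).re = -(δ * (w.re - a)) := by simp
    rw [e1, sub_add_cancel, Real.exp_neg] at h1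
    have h2 := Real.exp_pos (δ * (w.re - a))
    rw [inv_mul_le_iff₀ h2, mul_one] at h1
    exact h1
  have hlim : Tendsto (fun δ : ℝ => Real.exp (δ * (w.re - a))) (𝓝[>] 0) (𝓝 1) := by
    have : Tendsto (fun δ : ℝ => Real.exp (δ * (w.re - a))) (𝓝 0) (𝓝 (Real.exp (0 * (w.re - a)))) :=
      (Real.continuous_exp.comp (continuous_id.mul continuous_const)).tendsto 0
    rw [zero_mul, Real.exp_zero] at this
    exact this.mono_left nhdsWithin_le_nhds
  have h3 : ‖F (w - b) / F w‖ ≤ 1 :=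
    ge_of_tendsto hlim (eventually_mem_nhdsWithin.mono fun δ hδ => key δ hδ)
  rw [norm_div, div_le_one (norm_pos_iff.2 (h.nz w (by linarith)))] at h3
  exact h3

/-- the reflection principle on the line `Re = 1` -/
theorem reflect_one (h : GLClass F) {w : ℂ} (hw : 1 < w.re) : ‖F (w - 1)‖ ≤ ‖F w‖ := by
  have h1 : Tendsto (fun a : ℝ => ‖F (w - ((2 * a - 1 : ℝ) : ℂ))‖) (𝓝[>] 1)
      (𝓝 ‖F (w - ((2 * 1 - 1 : ℝ) : ℂ))‖) := by
    have : Continuous (fun a : ℝ => ‖F (w - ((2 * a - 1 : ℝ) : ℂ))‖) := by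
      have := h.diff.continuous
      fun_prop
    exact (this.tendsto 1).mono_left nhdsWithin_le_nhds
  have e : w - ((2 * 1 - 1 : ℝ) : ℂ) = w - 1 := by norm_num
  rw [e] at h1
  refine le_of_tendsto h1 ?_
  have h2 : Ioo (1:ℝ) w.re ∈ 𝓝[>] (1:ℝ) := Ioo_mem_nhdsGT hw
  filter_upwards [h2] with a ha
  exact h.reflect ha.1 ha.2.le

/-- a nonnegative function vanishing at `0` has nonnegative right derivative -/
lemma deriv_nonneg_of {φ : ℝ → ℝ} {φ' : ℝ} (hd : HasDerivAt φ φ' 0) (h0 : φ 0 = 0)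
    (hpos : ∀ x, 0 < x → 0 ≤ φ x) : 0 ≤ φ' := by
  have h1 := hd.tendsto_slope_zero_right
  refine ge_of_tendsto h1 ?_
  filter_upwards [self_mem_nhdsWithin] with t ht
  have ht' : 0 < t := ht
  rw [zero_add, h0, sub_zero, smul_eq_mul]
  have := hpos t ht'
  positivity

theorem re_logDeriv_nonneg (h : GLClass F) {w : ℂ} (hw : 1 < w.re) :
    0 ≤ (deriv F w / F w).re := by
  have hF : HasDerivAt F (deriv F w) w := (h.diff w).hasDerivAt
  -- the functions `x ↦ F(w ± x)`
  have h1 : HasDerivAt (fun x : ℝ => F (w + x)) (deriv F w) 0 := by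
    have h2 : HasDerivAt (fun z : ℂ => F (w + z)) (deriv F w) ((0:ℝ) : ℂ) := by
      have h3 : HasDerivAt (fun z : ℂ => w + z) 1 ((0:ℝ) : ℂ) := (hasDerivAt_id _).const_add w
      have h4 : HasDerivAt F (deriv F w) (w + ((0:ℝ):ℂ)) := by simpa using hF
      have h5 := HasDerivAt.comp (h := fun z : ℂ => w + z) _ h4 h3
      rw [mul_one] at h5
      exact h5
    exact h2.comp_ofReal
  have h5 : HasDerivAt (fun x : ℝ => F (w - x)) (-deriv F w) 0 := by
    have h2 : HasDerivAt (fun z : ℂ => F (w - z)) (-deriv F w) ((0:ℝ) : ℂ) := by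
      have h3 : HasDerivAt (fun z : ℂ => w - z) (-1) ((0:ℝ) : ℂ) := by
        simpa using (hasDerivAt_id ((0:ℝ):ℂ)).const_sub w
      have h4 : HasDerivAt F (deriv F w) (w - ((0:ℝ):ℂ)) := by simpa using hF
      have h5 := HasDerivAt.comp (h := fun z : ℂ => w - z) _ h4 h3
      rw [mul_neg, mul_one] at h5
      exact h5
    exact h2.comp_ofReal
  have h6 := h1.norm_sq.sub h5.norm_sq
  have h7 := deriv_nonneg_of (φ := fun x : ℝ => ‖F (w + x)‖ ^ 2 - ‖F (w - x)‖ ^ 2) h6 (by simp) ?_
  swap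
  · intro x hx
    have h8 := h.reflect hw (w := w + x) (by simp; exact hx.le)
    have e : w + x - ((2 * w.re - 1 : ℝ) : ℂ) = 1 - conj (w - x) := by
      have h9 : conj w = 2 * (w.re : ℂ) - w := by
        apply Complex.ext <;> simp
        ring
      rw [map_sub, h9, Complex.conj_ofReal]
      push_cast
      ring
    rw [e, h.norm_symm] at h8
    have := norm_nonneg (F (w - x))
    have h10 : ‖F (w - x)‖ ^ 2 ≤ ‖F (w + x)‖ ^ 2 := pow_le_pow_left₀ this h8 2
    linarith
  simp only [Complex.ofReal_zero, add_zero, sub_zero, inner_neg_right, Complex.inner] at h7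
  have hn : 0 < Complex.normSq (F w) := Complex.normSq_pos.2 (h.nz w hw.le)
  rw [Complex.div_re]
  have h11 : (conj (F w) * deriv F w).re = (F w).re * (deriv F w).re + (F w).im * (deriv F w).im := by
    simp
  have h12 : 0 ≤ (conj (F w) * deriv F w).re := by
    rw [mul_comm (deriv F w)] at h7
    linarith
  rw [h11] at h12
  rw [← add_div]
  apply div_nonneg _ hn.le
  linarith

lemma bounded_false (h : GLClass F) {K : ℝ} (hK : ∀ x : ℝ, 2 ≤ x → ‖F x‖ ≤ K) : False := by
  have hc : Continuous (fun x : ℝ => ‖F x‖) := by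
    have := h.diff.continuous
    fun_prop
  obtain ⟨B, hB⟩ := (isCompact_Icc (a := (1:ℝ)) (b := 2)).bddAbove_image hc.continuousOn
  obtain ⟨x, hx, hx2⟩ := h.big (max K B) 0
  rw [pow_zero, mul_one] at hx2
  rcases le_total 2 x with h1 | h1
  · exact absurd (hx2.trans_le (hK x h1)) (not_lt.2 (le_max_left _ _))
  · exact absurd (hx2.trans_le (hB ⟨x, ⟨hx, h1⟩, rfl⟩)) (not_lt.2 (le_max_right _ _))

lemma differentiableOn_logDeriv (h : GLClass F) :
    DifferentiableOn ℂ (fun w => deriv F w / F w) {w | 1 < w.re} := by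
  intro w hw
  have hd : Differentiable ℂ (deriv F) := by
    intro z
    exact ((h.diff.differentiableOn (s := univ)).deriv isOpen_univ z (mem_univ z)).differentiableAt
      univ_mem
  exact ((hd w).div (h.diff w) (h.nz w (le_of_lt hw))).differentiableWithinAt

/-- the real part of `F'/F` is positive at `2` -/
theorem pos_two (h : GLClass F) : 0 < (deriv F 2 / F 2).re := by
  rcases const_or_pos h.differentiableOn_logDeriv (fun w hw => h.re_logDeriv_nonneg hw) with
    ⟨c, hc, hconst⟩ | h1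
  swap
  · exact h1
  exfalso
  -- `exp(-c x) F(x)` is constant
  have hder : ∀ x : ℝ, 1 < x → HasDerivAt (fun x : ℝ => Complex.exp (-c * x) * F x) 0 x := by
    intro x hx
    have hx' : 1 < (x : ℂ).re := by simpa using hx
    have h2 : HasDerivAt (fun z : ℂ => Complex.exp (-c * z) * F z) 0 (x : ℂ) := by
      have h3 : HasDerivAt (fun z : ℂ => Complex.exp (-c * z)) (Complex.exp (-c * x) * (-c)) (x : ℂ) := by
        have h4 : HasDerivAt (fun z : ℂ => -c * z) (-c) (x : ℂ) := by
          simpa using (hasDerivAt_id (x : ℂ)).const_mul (-c)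
        exact h4.cexp
      have h5 := h3.mul (h.diff (x:ℂ)).hasDerivAt
      have h6 : deriv F x = c * F x := by
        have := hconst x hx'
        rwa [div_eq_iff (h.nz _ hx'.le)] at this
      rw [h6] at h5
      have h7 : Complex.exp (-c * x) * (-c) * F x + Complex.exp (-c * x) * (c * F x) = 0 := by ring
      rw [h7] at h5
      exact h5
    exact h2.comp_ofReal
  have hconst2 : ∀ x : ℝ, 2 ≤ x → Complex.exp (-c * x) * F x = Complex.exp (-c * (2:ℝ)) * F (2:ℝ) := by
    intro x hx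
    have h3 := (convex_Ioi (1:ℝ)).is_const_of_fderivWithin_eq_zero (𝕜 := ℝ)
      (f := fun x : ℝ => Complex.exp (-c * x) * F x)
      (fun y hy => (hder y hy).differentiableAt.differentiableWithinAt) ?_
      (x := x) (y := 2) (by simp; linarith) (by simp)
    · exact h3
    · intro y hy
      rw [fderivWithin_of_isOpen isOpen_Ioi hy, (hder y hy).hasFDerivAt.fderiv]
      ext
      simp
  refine h.bounded_false (K := ‖F (2:ℝ)‖) fun x hx => ?_
  have h3 := congrArg norm (hconst2 x hx)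
  rw [norm_mul, norm_mul, Complex.norm_exp, Complex.norm_exp] at h3
  have e1 : (-c * (x:ℂ)).re = 0 := by simp [hc]
  have e2 : (-c * ((2:ℝ):ℂ)).re = 0 := by simp [hc]
  rw [e1, e2, Real.exp_zero, one_mul, one_mul] at h3
  exact h3.le

theorem re_logDeriv_ge (h : GLClass F) {w : ℂ} (hw : 1 < w.re) :
    (deriv F 2 / F 2).re * ((w.re - 1) / ‖w‖ ^ 2) ≤ (deriv F w / F w).re :=
  harnack_half (p := fun w => deriv F w / F w) h.differentiableOn_logDeriv
    (fun _ hw => h.re_logDeriv_nonneg hw) hw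

/-- the symmetry of the derivative -/
lemma deriv_symm (h : GLClass F) {c : ℂ} (hc : ∀ s, F (1 - conj s) = c * conj (F s)) (s : ℂ) :
    deriv F (1 - conj s) = -c * conj (deriv F s) := by
  have h1 : (fun s => F (1 - s)) = fun s => c * ((starRingEnd ℂ) ∘ F ∘ (starRingEnd ℂ)) s := by
    funext z
    have := hc (conj z)
    rw [Complex.conj_conj] at this
    simpa using this
  have h2 : deriv (fun s => F (1 - s)) (conj s) = -deriv F (1 - conj s) := by
    rw [deriv_comp_const_sub]
  have h3 : deriv (fun s => c * ((starRingEnd ℂ) ∘ F ∘ (starRingEnd ℂ)) s) (conj s) =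
      c * conj (deriv F s) := by
    rw [deriv_const_mul_field]
    have h4 := congrFun (deriv_conj_conj (f := F)) (conj s)
    rw [h4]
    simp
  rw [h1, h3] at h2
  linear_combination h2

theorem deriv_ne_zero (h : GLClass F) {s : ℂ} (hs : 1 ≤ s.re) : deriv F s ≠ 0 := by
  intro h0
  rcases hs.lt_or_eq with h1 | h1
  · have h2 := h.re_logDeriv_ge h1
    rw [h0, zero_div, Complex.zero_re] at h2
    have h3 := h.pos_two
    have h4 : 0 < (s.re - 1) / ‖s‖ ^ 2 := by
      have : s ≠ 0 := by rintro rfl; simp at h1; linarith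
      have : 0 < ‖s‖ := norm_pos_iff.2 this
      have : 0 < s.re - 1 := by linarith
      positivity
    have := mul_pos h3 h4
    linarith
  · -- the line `Re s = 1`
    obtain ⟨c, hcn, hc⟩ := h.symm
    have hcs : s - 1 = 1 - conj s := by
      apply Complex.ext <;> simp <;> linarith
    have hFs := h.nz s hs
    set q : ℂ := F (s - 1) / F s with hq
    have hqn : ‖q‖ = 1 := by
      rw [hq, norm_div, hcs, h.norm_symm, div_self (norm_ne_zero_iff.2 hFs)]
    set g : ℂ → ℂ := fun w => 1 - conj q * (F (w - 1) / F w) with hg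
    have hQd : ∀ w : ℂ, 1 ≤ w.re → HasDerivAt (fun w => F (w - 1) / F w)
        ((deriv F (w - 1) * F w - F (w - 1) * deriv F w) / F w ^ 2) w := by
      intro w hw
      have h2 : HasDerivAt (fun w => F (w - 1)) (deriv F (w - 1)) w := by
        have h3 : HasDerivAt (fun w : ℂ => w - 1) 1 w := (hasDerivAt_id w).sub_const 1
        have h4 := HasDerivAt.comp (h := fun w : ℂ => w - 1) w (h.diff (w - 1)).hasDerivAt h3
        rw [mul_one] at h4
        exact h4
      exact h2.div (h.diff w).hasDerivAt (h.nz w hw)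
    have hgd : DifferentiableOn ℂ g {w | 1 < w.re} := fun w hw =>
      (((hQd w (le_of_lt hw)).differentiableAt.const_mul _).const_sub 1).differentiableWithinAt
    have hgre : ∀ w : ℂ, 1 < w.re → 0 ≤ (g w).re := by
      intro w hw
      have h2 : ‖conj q * (F (w - 1) / F w)‖ ≤ 1 := by
        rw [norm_mul, Complex.norm_conj, hqn, one_mul, norm_div,
          div_le_one (norm_pos_iff.2 (h.nz w hw.le))]
        exact h.reflect_one hw
      have h3 := (Complex.re_le_norm (conj q * (F (w - 1) / F w))).trans h2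
      rw [hg]
      simp only [Complex.sub_re, Complex.one_re]
      linarith
    have hg0 : g s = 0 := by
      rw [hg]
      simp only
      rw [← hq, mul_comm, Complex.mul_conj, Complex.normSq_eq_norm_sq, hqn]
      simp
    have hgd0 : HasDerivAt g 0 s := by
      have h2 := ((hQd s hs).const_mul (conj q)).const_sub 1
      have h3 : deriv F (s - 1) = 0 := by
        rw [hcs, h.deriv_symm hc, h0]
        simp
      rw [h3, h0] at h2
      simpa using h2
    rcases const_or_pos hgd hgre with ⟨c', hc', hconst⟩ | hpos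
    · -- `g` constant
      have h2 : c' = 0 := by
        have h3 : Tendsto (fun x : ℝ => g (s + x)) (𝓝[>] 0) (𝓝 (g s)) := by
          have h4 : ContinuousAt (fun x : ℝ => g (s + x)) 0 := by
            have h5 : ContinuousAt g (s + ((0:ℝ):ℂ)) := by simpa using hgd0.continuousAt
            exact ContinuousAt.comp (f := fun x : ℝ => s + (x:ℂ)) h5 (by fun_prop)
          have h6 := h4.tendsto.mono_left (nhdsWithin_le_nhds (s := Ioi 0))
          simpa using h6
        have h4 : Tendsto (fun x : ℝ => g (s + x)) (𝓝[>] 0) (𝓝 c') := by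
          refine Tendsto.congr' ?_ tendsto_const_nhds
          filter_upwards [self_mem_nhdsWithin] with x hx
          have hx' : 0 < x := hx
          exact (hconst _ (by simp; linarith)).symm
        rw [hg0] at h3
        exact tendsto_nhds_unique h4 h3
      subst h2
      have h3 : ∀ x : ℝ, 1 < x → ‖F (x - 1 : ℝ)‖ = ‖F x‖ := by
        intro x hx
        have h4 := hconst x (by simpa using hx)
        rw [hg] at h4
        simp only at h4
        have h5 : conj q * (F (x - 1) / F x) = 1 := by linear_combination -h4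
        have h6 := congrArg norm h5
        rw [norm_mul, Complex.norm_conj, hqn, one_mul, norm_div, norm_one] at h6
        have h7 : 0 < ‖F x‖ := norm_pos_iff.2 (h.nz x (by simpa using hx.le))
        rw [div_eq_one_iff_eq h7.ne'] at h6
        push_cast
        exact h6
      have hc : Continuous (fun x : ℝ => ‖F x‖) := by
        have := h.diff.continuous
        fun_prop
      obtain ⟨B, hB⟩ := (isCompact_Icc (a := (0:ℝ)) (b := 1)).bddAbove_image hc.continuousOn
      have h4 : ∀ n : ℕ, ∀ x : ℝ, 0 ≤ x → x ≤ n + 1 → ‖F x‖ ≤ B := by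
        intro n
        induction n with
        | zero =>
          intro x hx hx1
          exact hB ⟨x, ⟨hx, by simpa using hx1⟩, rfl⟩
        | succ n ih =>
          intro x hx hx1
          rcases le_or_gt x 1 with h5 | h5
          · exact hB ⟨x, ⟨hx, h5⟩, rfl⟩
          · rw [← h3 x h5]
            refine ih (x - 1) (by linarith) ?_
            push_cast at hx1
            linarith
      refine h.bounded_false (K := B) fun x hx => ?_
      obtain ⟨n, hn⟩ := exists_nat_ge x
      exact h4 n x (by linarith) (by linarith)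
    · -- Hopf's lemma
      have h2 : Tendsto (fun t : ℝ => (g (s + t)).re / t) (𝓝[>] 0) (𝓝 0) := by
        have h3 : HasDerivAt (fun t : ℝ => g (s + t)) 0 0 := by
          have h4 : HasDerivAt (fun z : ℂ => s + z) 1 ((0:ℝ) : ℂ) := (hasDerivAt_id _).const_add s
          have h5 : HasDerivAt g 0 (s + ((0:ℝ):ℂ)) := by simpa using hgd0
          have h6 := HasDerivAt.comp (h := fun z : ℂ => s + z) _ h5 h4
          rw [zero_mul] at h6
          exact h6.comp_ofReal
        have h7 := h3.tendsto_slope_zero_right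
        have h8 := (Complex.continuous_re.tendsto 0).comp h7
        rw [Complex.zero_re] at h8
        refine h8.congr' ?_
        filter_upwards [self_mem_nhdsWithin] with t ht
        simp only [Function.comp, zero_add, Complex.ofReal_zero, add_zero, hg0, sub_zero]
        rw [Complex.real_smul, Complex.re_ofReal_mul, div_eq_inv_mul]
      have h3 : Tendsto (fun t : ℝ => (g 2).re * (1 / ‖s + t‖ ^ 2)) (𝓝[>] 0)
          (𝓝 ((g 2).re * (1 / ‖s + (0:ℝ)‖ ^ 2))) := by
        have hne : ‖s + ((0:ℝ):ℂ)‖ ^ 2 ≠ 0 := by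
          have : s ≠ 0 := by rintro rfl; simp at h1
          simpa using this
        have h4 : ContinuousAt (fun t : ℝ => (g 2).re * (1 / ‖s + t‖ ^ 2)) 0 := by
          have h5 : ContinuousAt (fun t : ℝ => ‖s + (t:ℂ)‖ ^ 2) 0 := by fun_prop
          have h6 : ContinuousAt (fun t : ℝ => 1 / ‖s + (t:ℂ)‖ ^ 2) 0 :=
            continuousAt_const.div h5 hne
          exact continuousAt_const.mul h6
        exact h4.tendsto.mono_left nhdsWithin_le_nhds
      have h4 : (g 2).re * (1 / ‖s + (0:ℝ)‖ ^ 2) ≤ 0 := by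
        refine le_of_tendsto_of_tendsto h3 h2 ?_
        filter_upwards [self_mem_nhdsWithin] with t ht
        have ht' : 0 < t := ht
        have h5 := harnack_half hgd hgre (w := s + t) (by simp; linarith)
        have h6 : (s + (t:ℂ)).re - 1 = t := by simp; linarith
        rw [h6] at h5
        rw [le_div_iff₀ ht']
        calc (g 2).re * (1 / ‖s + (t:ℂ)‖ ^ 2) * t = (g 2).re * (t / ‖s + (t:ℂ)‖ ^ 2) := by ring
          _ ≤ _ := h5
      have h5 : 0 < ‖s + ((0:ℝ):ℂ)‖ := by
        have : s ≠ 0 := by rintro rfl; simp at h1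
        simpa using this
      have h6 : 0 < (g 2).re * (1 / ‖s + ((0:ℝ):ℂ)‖ ^ 2) := by positivity
      linarith

theorem deriv_grow (h : GLClass F) (a r : ℝ) (ha : 1 < a) (hr : 0 ≤ r) :
    ∃ (C : ℝ) (N : ℕ), 0 ≤ C ∧ ∀ w u : ℂ, a ≤ w.re → ‖u‖ ≤ r →
    ‖deriv F (w + u)‖ ≤ C * (1 + ‖w‖) ^ N * ‖deriv F w‖ := by
  obtain ⟨C, N, hC, hgr⟩ := h.grow a (r + 1) ha (by linarith)
  set κ := (deriv F 2 / F 2).re with hκ
  have hκ0 : 0 < κ := h.pos_two
  have ha1 : 0 < a - 1 := by linarith
  refine ⟨C / (κ * (a - 1)), N + 2, by positivity, fun w u hw hu => ?_⟩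
  have hw1 : 1 < w.re := by linarith
  have h1 : ‖deriv F (w + u)‖ ≤ C * (1 + ‖w‖) ^ N * ‖F w‖ / 1 := by
    refine Complex.norm_deriv_le_of_forall_mem_sphere_norm_le one_pos h.diff.diffContOnCl ?_
    intro z hz
    rw [mem_sphere_iff_norm] at hz
    have h2 := hgr w (z - w) hw (by
      have : z - w = u + (z - (w + u)) := by ring
      rw [this]
      refine (norm_add_le _ _).trans ?_
      rw [hz]
      linarith)
    rwa [add_sub_cancel] at h2
  rw [div_one] at h1
  have h3 : κ * ((w.re - 1) / ‖w‖ ^ 2) ≤ ‖deriv F w / F w‖ :=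
    (h.re_logDeriv_ge hw1).trans (Complex.re_le_norm _)
  have hwn : 0 < ‖w‖ := norm_pos_iff.2 (by rintro rfl; simp at hw1; linarith)
  have hFn : 0 < ‖F w‖ := norm_pos_iff.2 (h.nz w hw1.le)
  rw [norm_div, le_div_iff₀ hFn] at h3
  have h4 : ‖F w‖ ≤ (1 + ‖w‖) ^ 2 / (κ * (a - 1)) * ‖deriv F w‖ := by
    rw [div_mul_eq_mul_div, le_div_iff₀ (by positivity)]
    have h5 : ‖F w‖ * (κ * (a - 1)) ≤ ‖w‖ ^ 2 * ‖deriv F w‖ := by
      have h6 : κ * ((a - 1) / ‖w‖ ^ 2) * ‖F w‖ ≤ ‖deriv F w‖ := by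
        refine le_trans ?_ h3
        gcongr
      calc ‖F w‖ * (κ * (a - 1)) = ‖w‖ ^ 2 * (κ * ((a - 1) / ‖w‖ ^ 2) * ‖F w‖) := by
            field_simp
        _ ≤ _ := by gcongr
    refine h5.trans ?_
    have h6 : ‖w‖ ^ 2 ≤ (1 + ‖w‖) ^ 2 := pow_le_pow_left₀ hwn.le (by linarith) 2
    gcongr
  calc ‖deriv F (w + u)‖ ≤ C * (1 + ‖w‖) ^ N * ‖F w‖ := h1
    _ ≤ C * (1 + ‖w‖) ^ N * ((1 + ‖w‖) ^ 2 / (κ * (a - 1)) * ‖deriv F w‖) := by gcongr
    _ = _ := by rw [pow_add]; ring

lemma differentiable_deriv (h : GLClass F) : Differentiable ℂ (deriv F) := by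
  intro z
  exact ((h.diff.differentiableOn (s := univ)).deriv isOpen_univ z (mem_univ z)).differentiableAt
    univ_mem

theorem deriv_big (h : GLClass F) (K : ℝ) (N : ℕ) : ∃ x : ℝ, 1 ≤ x ∧ K * x ^ N < ‖deriv F x‖ := by
  by_contra hcon
  push Not at hcon
  obtain ⟨x, hx, hx2⟩ := h.big (‖F 1‖ + |K|) (N + 1)
  have h1 : ∀ y ∈ Icc (1:ℝ) x, HasDerivWithinAt (fun y : ℝ => F y) (deriv F y) (Icc 1 x) y :=
    fun y _ => ((h.diff (y:ℂ)).hasDerivAt.comp_ofReal).hasDerivWithinAt
  have h2 : ∀ y ∈ Ico (1:ℝ) x, ‖deriv F y‖ ≤ |K| * x ^ N := by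
    intro y hy
    refine (hcon y hy.1).trans ?_
    have : (0:ℝ) ≤ y := by linarith [hy.1]
    have h3 : y ^ N ≤ x ^ N := pow_le_pow_left₀ this hy.2.le N
    calc K * y ^ N ≤ |K| * y ^ N := by gcongr; exact le_abs_self K
      _ ≤ |K| * x ^ N := by gcongr
  have h3 := norm_image_sub_le_of_norm_deriv_le_segment' h1 h2 x ⟨hx, le_rfl⟩
  have h4 : ‖F x‖ ≤ ‖F 1‖ + |K| * x ^ N * (x - 1) := by
    have h5 := norm_le_norm_add_norm_sub' (F (x:ℂ)) (F ((1:ℝ):ℂ))
    rw [Complex.ofReal_one] at h5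
    simp only [Complex.ofReal_one] at h3
    linarith
  have h6 : ‖F 1‖ ≤ ‖F 1‖ * x ^ (N + 1) :=
    le_mul_of_one_le_right (norm_nonneg _) (one_le_pow₀ hx)
  have h7 : |K| * x ^ N * (x - 1) ≤ |K| * x ^ (N + 1) := by
    have h8 : |K| * x ^ (N + 1) = |K| * x ^ N * x := by ring
    rw [h8]
    have : 0 ≤ |K| * x ^ N := by positivity
    nlinarith
  linarith

/-- **The Gauss–Lucas theorem**: the class is closed under differentiation. -/
theorem deriv (h : GLClass F) : GLClass (deriv F) where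
  diff := h.differentiable_deriv
  symm := by
    obtain ⟨c, hc, h1⟩ := h.symm
    exact ⟨-c, by rw [norm_neg, hc], fun s => h.deriv_symm h1 s⟩
  nz := fun _ hs => h.deriv_ne_zero hs
  grow := h.deriv_grow
  big := h.deriv_big

theorem iteratedDeriv (h : GLClass F) (k : ℕ) : GLClass (iteratedDeriv k F) := by
  induction k with
  | zero => rwa [iteratedDeriv_zero]
  | succ k ih => rw [iteratedDeriv_succ]; exact ih.deriv

theorem iteratedDeriv_ne_zero (h : GLClass F) (k : ℕ) {s : ℂ} (hs : 1 ≤ s.re) :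
    _root_.iteratedDeriv k F s ≠ 0 :=
  (h.iteratedDeriv k).nz s hs

end GLClass

end P026.H725
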