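import Vale.Agent.P026.H725.GLAbs
import Vale.Agent.P026.H832.F3

/-!
# The Gauss–Lucas theorem for `ξ` and for the completed Dirichlet `L`-functions

No derivative of `ξ` or of `Λ(·, χ)` (`χ` primitive, nonprincipal) has a zero in `Re s ≥ 1`.
-/

open Complex Filter Metric Set Topology
open scoped ComplexConjugate Real

namespace P026.H725

open Vale.Agent.P026.H832

/-! ### growth of the gamma factor -/

/-- `‖a(w)‖ ≤ K + log (2 + ‖w‖)` -/
lemma norm_aL_le {q κ : ℝ} (hq : 1 ≤ q) (hκ : 0 ≤ κ) (hκ1 : κ ≤ 1) {w : ℂ} (hw : 1 / 2 ≤ w.re) :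
    ‖aL q κ w‖ ≤ (Real.log q + 20) + Real.log (2 + ‖w‖) := by
  set z : ℂ := (w + κ) / 2 with hz
  have hre : z.re = (w.re + κ) / 2 := by simp [hz]
  have h1 : ‖Complex.digamma z - Complex.log z‖ ≤ 20 :=
    norm_digamma_sub_log_le (by rw [hre]; linarith)
  have hzn : ‖z‖ ≤ 2 + ‖w‖ := by
    rw [hz, norm_div, Complex.norm_ofNat]
    have h2 := norm_add_le w (κ : ℂ)
    rw [Complex.norm_real, Real.norm_eq_abs, abs_of_nonneg hκ] at h2
    have := norm_nonneg w
    linarith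
  have hzl : 1/4 ≤ ‖z‖ := by
    have h2 := (Complex.abs_re_le_norm z)
    rw [hre, abs_of_nonneg (by linarith)] at h2
    linarith
  have h2 : ‖Complex.log z‖ ≤ 2 * Real.log 2 + Real.log (2 + ‖w‖) + 1.6 := by
    refine (Complex.norm_le_abs_re_add_abs_im _).trans ?_
    rw [Complex.log_re, Complex.log_im]
    have h3 : |z.arg| ≤ 1.6 := by
      have h5 : |z.arg| ≤ Real.pi / 2 := by
        rw [Complex.abs_arg_le_pi_div_two_iff, hre]
        linarith
      have := Real.pi_lt_d2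
      linarith
    have h4 : |Real.log ‖z‖| ≤ 2 * Real.log 2 + Real.log (2 + ‖w‖) := by
      have h5 : 0 ≤ Real.log (2 + ‖w‖) := Real.log_nonneg (by have := norm_nonneg w; linarith)
      have h6 : 0 ≤ Real.log 2 := Real.log_nonneg (by norm_num)
      rw [abs_le]
      constructor
      · have h7 : Real.log (1/4) ≤ Real.log ‖z‖ := Real.log_le_log (by norm_num) hzl
        have h8 : Real.log (1/4) = -(2 * Real.log 2) := by
          rw [show (1/4:ℝ) = (2^2)⁻¹ by norm_num, Real.log_inv, Real.log_pow]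
          norm_num
        linarith
      · have h7 : Real.log ‖z‖ ≤ Real.log (2 + ‖w‖) := Real.log_le_log (by linarith) hzn
        linarith
    linarith
  have h3 : Real.log 2 ≤ 0.7 := by
    have := Real.log_two_lt_d9
    linarith
  have h4 : ‖Complex.digamma z‖ ≤ 24 + Real.log (2 + ‖w‖) := by
    have h5 : Complex.digamma z = (Complex.digamma z - Complex.log z) + Complex.log z := by ring
    rw [h5]
    refine (norm_add_le _ _).trans ?_
    linarith
  unfold aL
  rw [← hz]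
  have hl : 0 ≤ Real.log q := Real.log_nonneg hq
  refine (norm_add_le _ _).trans ?_
  rw [norm_div, norm_div, Complex.norm_ofNat, ← Complex.ofReal_sub, Complex.norm_real,
    Real.norm_eq_abs]
  have h6 : |Real.log q - Real.log π| ≤ Real.log q + 2.1 := by
    rw [abs_le]
    have := log_pi_le
    have := log_pi_nonneg
    constructor <;> linarith
  have h7 : 0 ≤ Real.log (2 + ‖w‖) := Real.log_nonneg (by have := norm_nonneg w; linarith)
  linarith

/-- comparison of the values of the gamma factor -/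
lemma norm_GLf_le {q κ : ℝ} (hq : 1 ≤ q) (hκ : 0 ≤ κ) (hκ1 : κ ≤ 1) {w z : ℂ} {R : ℝ}
    (hw : 1 / 2 ≤ w.re) (hz : 1 / 2 ≤ z.re) (hR : ‖z - w‖ ≤ R) :
    ‖GLf q κ z‖ ≤ ‖GLf q κ w‖ * Real.exp (R * ((Real.log q + 20) + Real.log (2 + ‖w‖ + R))) := by
  have hR0 : 0 ≤ R := (norm_nonneg _).trans hR
  set g : ℝ → ℂ := fun u => GLf q κ (w + u * (z - w)) with hg
  set α : ℝ → ℂ := fun u => aL q κ (w + u * (z - w)) * (z - w) with hα
  have hre : ∀ u ∈ Icc (0:ℝ) 1, 1/2 ≤ (w + u * (z - w)).re := by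
    intro u hu
    simp only [Complex.add_re, Complex.re_ofReal_mul, Complex.sub_re]
    nlinarith [hu.1, hu.2]
  have hd : ∀ u ∈ Icc (0:ℝ) 1, HasDerivAt g (α u * g u) u := by
    intro u hu
    have h1 : HasDerivAt (fun v : ℂ => w + v * (z - w)) (z - w) (u : ℂ) := by
      simpa using ((hasDerivAt_id (u : ℂ)).mul_const (z - w)).const_add w
    have h2 := hasDerivAt_GLf (q := q) (κ := κ) (by linarith) hκ (s := w + u * (z - w))
      (by linarith [hre u hu])
    have h3 := HasDerivAt.comp (h := fun v : ℂ => w + v * (z - w)) (u : ℂ) h2 h1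
    refine h3.comp_ofReal.congr_deriv ?_
    simp only [hα, hg]
    ring
  have hb : ∀ u ∈ Icc (0:ℝ) 1, (α u).re ≤ R * ((Real.log q + 20) + Real.log (2 + ‖w‖ + R)) := by
    intro u hu
    refine (Complex.re_le_norm _).trans ?_
    simp only [hα]
    rw [norm_mul, mul_comm]
    have h4 := norm_aL_le hq hκ hκ1 (hre u hu)
    have h5 : ‖w + u * (z - w)‖ ≤ ‖w‖ + R := by
      refine (norm_add_le _ _).trans ?_
      rw [norm_mul, Complex.norm_real, Real.norm_eq_abs, abs_of_nonneg hu.1]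
      nlinarith [hu.1, hu.2, norm_nonneg (z - w)]
    have h6 : Real.log (2 + ‖w + u * (z - w)‖) ≤ Real.log (2 + ‖w‖ + R) :=
      Real.log_le_log (by have := norm_nonneg (w + u * (z - w)); linarith) (by linarith)
    exact mul_le_mul hR (h4.trans (by linarith)) (norm_nonneg _) hR0
  have h7 := norm_le_exp hd hb 1 ⟨zero_le_one, le_rfl⟩
  simp only [hg, mul_one, Complex.ofReal_one, one_mul, Complex.ofReal_zero, zero_mul,
    add_zero] at h7
  rwa [add_sub_cancel] at h7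

/-- superpolynomial growth of the gamma factor -/
lemma GLf_big {q κ : ℝ} (hq : 1 ≤ q) (hκ : 0 ≤ κ) (hκ1 : κ ≤ 1) (K : ℝ) (N : ℕ) :
    ∃ x : ℝ, 2 ≤ x ∧ K * x ^ N < ‖GLf q κ x‖ := by
  -- `x = 2 (m + 1) - κ`
  have h1 := FloorSemiring.tendsto_pow_div_factorial_atTop (π * Real.exp 2)
  have h2 : Tendsto (fun m : ℕ => |K| * (N.factorial * (π * Real.exp 2)) *
      ((π * Real.exp 2) ^ m / m.factorial)) atTop (𝓝 0) := by
    simpa using h1.const_mul (|K| * (N.factorial * (π * Real.exp 2)))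
  obtain ⟨m, hm, hm1⟩ := ((h2.eventually_lt_const (zero_lt_one (α := ℝ))).and
    (eventually_ge_atTop 1)).exists
  have hm1' : (1:ℝ) ≤ m := by exact_mod_cast hm1
  refine ⟨2 * (m + 1) - κ, by linarith, ?_⟩
  have hx0 : 0 ≤ 2 * ((m:ℝ) + 1) - κ := by linarith
  have h3 : ‖GLf q κ ((2 * (m + 1) - κ : ℝ) : ℂ)‖ =
      q ^ ((2 * (m + 1) - κ) / 2) * (π ^ (-((m:ℝ) + 1)) * m.factorial) := by
    unfold GLf
    rw [norm_mul]
    congr 1
    · have e : (((2 * (m + 1) - κ : ℝ) : ℂ)) / 2 = (((2 * (m + 1) - κ) / 2 : ℝ) : ℂ) := by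
        push_cast; ring
      rw [e, ← Complex.ofReal_cpow (by linarith), Complex.norm_real, Real.norm_eq_abs,
        abs_of_pos (Real.rpow_pos_of_pos (by linarith) _)]
    · have e : (((2 * (m + 1) - κ : ℝ) : ℂ)) + κ = 2 * ((m:ℂ) + 1) := by
        push_cast; ring
      rw [e, Complex.Gammaℝ_def]
      have e2 : -(2 * ((m:ℂ) + 1)) / 2 = ((-((m:ℝ) + 1) : ℝ) : ℂ) := by
        push_cast; ring
      have e3 : 2 * ((m:ℂ) + 1) / 2 = (m:ℂ) + 1 := by ring
      rw [e2, e3, Complex.Gamma_nat_eq_factorial, norm_mul, ← Complex.ofReal_cpow Real.pi_pos.le,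
        Complex.norm_real, Real.norm_eq_abs, abs_of_pos (Real.rpow_pos_of_pos Real.pi_pos _),
        Complex.norm_natCast]
  rw [h3]
  have h4 : 1 ≤ q ^ ((2 * ((m:ℝ) + 1) - κ) / 2) := Real.one_le_rpow hq (by linarith)
  have h5 : π ^ (-((m:ℝ) + 1)) = (π ^ (m + 1))⁻¹ := by
    rw [Real.rpow_neg Real.pi_pos.le, ← Nat.cast_succ, Real.rpow_natCast]
  rw [h5]
  have hf : (0:ℝ) < m.factorial := by exact_mod_cast m.factorial_pos
  have h6 : |K| * (N.factorial * (π * Real.exp 2)) * (π * Real.exp 2) ^ m < m.factorial := by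
    rw [← mul_div_assoc, div_lt_one hf] at hm
    exact hm
  have h7 : (2 * ((m:ℝ) + 1) - κ) ^ N ≤ (N.factorial * (1/1) ^ N) * Real.exp (1 * (2 * (m + 1))) := by
    refine le_trans ?_ (GLClass.pow_le_exp N one_pos (by positivity))
    exact pow_le_pow_left₀ hx0 (by linarith) N
  have h8 : Real.exp (1 * (2 * ((m:ℝ) + 1))) = Real.exp 2 ^ (m + 1) := by
    rw [← Real.exp_nat_mul]; congr 1; push_cast; ring
  rw [h8, div_one, one_pow, mul_one] at h7
  have hpi : 0 < π ^ (m + 1) := by positivity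
  calc K * (2 * ((m:ℝ) + 1) - κ) ^ N ≤ |K| * (2 * ((m:ℝ) + 1) - κ) ^ N := by
        gcongr; exact le_abs_self K
    _ ≤ |K| * (N.factorial * Real.exp 2 ^ (m + 1)) := by gcongr
    _ = (π ^ (m + 1))⁻¹ * (|K| * (N.factorial * (π * Real.exp 2)) * (π * Real.exp 2) ^ m) := by
        rw [mul_pow, pow_succ π m, pow_succ (Real.exp 2) m]
        field_simp
    _ < (π ^ (m + 1))⁻¹ * m.factorial := by
        apply mul_lt_mul_of_pos_left h6 (by positivity)
    _ = 1 * ((π ^ (m + 1))⁻¹ * m.factorial) := by rw [one_mul]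
    _ ≤ _ := by gcongr

/-- the growth condition for functions `F = G L` -/
theorem grow_of {F L : ℂ → ℂ} {q κ : ℝ} (hq : 1 ≤ q) (hκ : 0 ≤ κ) (hκ1 : κ ≤ 1)
    (hsymm : ∀ s, ‖F (1 - conj s)‖ = ‖F s‖)
    (hfac : ∀ s : ℂ, 1/2 ≤ s.re → F s = GLf q κ s * L s)
    (hLup : ∃ (C : ℝ) (N : ℕ), 0 ≤ C ∧ ∀ s : ℂ, 1/2 ≤ s.re → ‖L s‖ ≤ C * (1 + ‖s‖) ^ N)
    (hLlo : ∀ a : ℝ, 1 < a → ∃ c : ℝ, 0 < c ∧ ∀ s : ℂ, a ≤ s.re → c ≤ ‖L s‖)
    (a r : ℝ) (ha : 1 < a) (hr : 0 ≤ r) : ∃ (C : ℝ) (N : ℕ), 0 ≤ C ∧ ∀ w u : ℂ, a ≤ w.re → ‖u‖ ≤ r →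
    ‖F (w + u)‖ ≤ C * (1 + ‖w‖) ^ N * ‖F w‖ := by
  obtain ⟨C0, N0, hC0, hup⟩ := hLup
  obtain ⟨c, hc, hlo⟩ := hLlo a ha
  -- natural number `R`
  obtain ⟨R, hR⟩ := exists_nat_ge (2 + 4 * r)
  have hR2 : (2:ℝ) ≤ R := by linarith
  set B : ℝ := Real.log q + 20 with hB
  refine ⟨C0 / c * Real.exp (R * B) * (1 + R) ^ N0 * (2 + R) ^ R, N0 + R, by positivity,
    fun w u hw hu => ?_⟩
  have hwn := norm_nonneg w
  -- the point `z`
  obtain ⟨z, hz, hzw, hFz⟩ : ∃ z : ℂ, 1/2 ≤ z.re ∧ ‖z - w‖ ≤ R ∧ ‖F (w + u)‖ = ‖F z‖ := by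
    rcases le_or_gt (1/2) (w + u).re with h1 | h1
    · exact ⟨w + u, h1, by rw [add_sub_cancel_left]; linarith, rfl⟩
    · refine ⟨1 - conj (w + u), by simp only [Complex.sub_re, Complex.one_re, Complex.conj_re]; linarith,
        ?_, (hsymm _).symm⟩
      have hur : |u.re| ≤ r := (Complex.abs_re_le_norm u).trans hu
      have hui : |u.im| ≤ r := (Complex.abs_im_le_norm u).trans hu
      refine (Complex.norm_le_abs_re_add_abs_im _).trans ?_
      simp only [Complex.add_re] at h1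
      have e1 : (1 - conj (w + u) - w).re = 1 - 2 * w.re - u.re := by simp; ring
      have e2 : (1 - conj (w + u) - w).im = u.im := by simp
      rw [e1, e2]
      have h2 : |1 - 2 * w.re - u.re| ≤ 2 + 3 * r := by
        rw [abs_le] at hur ⊢
        constructor <;> linarith [hur.1, hur.2]
      linarith
  rw [hFz, hfac z hz, hfac w (by linarith), norm_mul, norm_mul]
  have h1 := norm_GLf_le hq hκ hκ1 (by linarith : 1/2 ≤ w.re) hz hzw
  have h2 := hup z hz
  have h3 := hlo w hw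
  have h4 : ‖z‖ ≤ ‖w‖ + R := by
    have : z = w + (z - w) := by ring
    rw [this]
    exact (norm_add_le _ _).trans (by linarith)
  have h5 : Real.exp (R * (B + Real.log (2 + ‖w‖ + R))) = Real.exp (R * B) * (2 + ‖w‖ + R) ^ R := by
    rw [mul_add, Real.exp_add, Real.exp_nat_mul (Real.log (2 + ‖w‖ + R)), Real.exp_log (by positivity)]
  rw [← hB, h5] at h1
  have h6 : (2 + ‖w‖ + R) ^ R ≤ ((2 + R) * (1 + ‖w‖)) ^ R := by
    apply pow_le_pow_left₀ (by positivity)
    nlinarith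
  have h7 : (1 + ‖z‖) ^ N0 ≤ ((1 + R) * (1 + ‖w‖)) ^ N0 := by
    apply pow_le_pow_left₀ (by positivity)
    nlinarith
  have hG := norm_nonneg (GLf q κ w)
  calc ‖GLf q κ z‖ * ‖L z‖
      ≤ (‖GLf q κ w‖ * (Real.exp (R * B) * ((2 + R) * (1 + ‖w‖)) ^ R)) *
        (C0 * ((1 + R) * (1 + ‖w‖)) ^ N0) := by
        apply mul_le_mul
        · refine h1.trans ?_
          gcongr
        · refine h2.trans ?_
          gcongr
        · positivity
        · positivity
    _ = C0 / c * Real.exp (R * B) * (1 + R) ^ N0 * (2 + R) ^ R * (1 + ‖w‖) ^ (N0 + R) *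
        (‖GLf q κ w‖ * c) := by
        rw [mul_pow, mul_pow, pow_add]
        field_simp
    _ ≤ _ := by gcongr

/-! ### lower bound for `L` -/

/-- `|L(s, χ)| ≥ c > 0` on `Re s ≥ a > 1` -/
theorem norm_LFunction_ge {q : ℕ} [NeZero q] (χ : DirichletCharacter ℂ q) {a : ℝ} (ha : 1 < a) :
    ∃ c : ℝ, 0 < c ∧ ∀ s : ℂ, a ≤ s.re → c ≤ ‖χ.LFunction s‖ := by
  set M : ℝ := ∑' n : ℕ, 1 / (n : ℝ) ^ a with hM
  have hsum2 : Summable (fun n : ℕ => 1 / (n : ℝ) ^ a) :=
    Real.summable_one_div_nat_rpow.mpr ha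
  have hM0 : 1 ≤ M := by
    have h1 : (1:ℝ) = 1 / ((1:ℕ) : ℝ) ^ a := by simp
    rw [h1]
    exact hsum2.le_tsum 1 (fun n _ => by positivity)
  refine ⟨1 / M, by positivity, fun s hs => ?_⟩
  have hs1 : 1 < s.re := by linarith
  rw [DirichletCharacter.LFunction_eq_LSeries χ hs1]
  have h2 := DirichletCharacter.LSeries.mul_mu_eq_one χ hs1
  have h3 : ‖LSeries ((fun n : ℕ => χ (n : ZMod q)) * fun n : ℕ => ((ArithmeticFunction.moebius n : ℤ) : ℂ)) s‖
      ≤ M := by
    refine tsum_of_norm_bounded hsum2.hasSum fun n => ?_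
    rcases Nat.eq_zero_or_pos n with rfl | hn
    · rw [LSeries.term_zero, norm_zero]
      positivity
    · rw [LSeries.norm_term_eq, if_neg hn.ne']
      have h1 : (1 : ℝ) ≤ n := by exact_mod_cast hn
      have h2 : (n : ℝ) ^ a ≤ (n : ℝ) ^ s.re := Real.rpow_le_rpow_of_exponent_le h1 hs
      have h3 : 0 < (n : ℝ) ^ a := by positivity
      gcongr
      rw [Pi.mul_apply, norm_mul]
      have h4 := DirichletCharacter.norm_le_one χ (n : ZMod q)
      have h5 : ‖((ArithmeticFunction.moebius n : ℤ) : ℂ)‖ ≤ 1 := by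
        rw [Complex.norm_intCast]
        exact_mod_cast ArithmeticFunction.abs_moebius_le_one
      exact mul_le_one₀ h4 (norm_nonneg _) h5
  have h4 := congrArg norm h2
  rw [norm_mul, norm_one] at h4
  have hn := norm_nonneg (LSeries (fun n : ℕ => χ (n : ZMod q)) s)
  rw [div_le_iff₀ (by linarith)]
  calc 1 = _ := h4.symm
    _ ≤ _ := by
      gcongr

/-! ### symmetry under complex conjugation -/

/-- extension of `F (conj s) = conj (F' s)` from `Re s > 1` to the plane -/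
lemma conj_of_half {F F' : ℂ → ℂ} (hF : Differentiable ℂ F) (hF' : Differentiable ℂ F')
    (h : ∀ s : ℂ, 1 < s.re → F (conj s) = conj (F' s)) (s : ℂ) : F (conj s) = conj (F' s) := by
  set g : ℂ → ℂ := (starRingEnd ℂ) ∘ F' ∘ (starRingEnd ℂ) with hg
  have hgd : Differentiable ℂ g := by
    intro z
    have := (hF' (conj z)).conj_conj
    rwa [Complex.conj_conj] at this
  have hA : AnalyticOnNhd ℂ F univ := fun z _ => hF.analyticAt z
  have hB : AnalyticOnNhd ℂ g univ := fun z _ => hgd.analyticAt z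
  have hopen : IsOpen {w : ℂ | 1 < w.re} := isOpen_lt continuous_const Complex.continuous_re
  have h2 : (2:ℂ) ∈ {w : ℂ | 1 < w.re} := by simp
  have h3 := hA.eqOn_of_preconnected_of_eventuallyEq hB isPreconnected_univ (mem_univ (2:ℂ)) (by
    filter_upwards [hopen.mem_nhds h2] with z hz
    have h4 := h (conj z) (by simpa using hz)
    rw [Complex.conj_conj] at h4
    rw [h4, hg]
    rfl)
  have h5 := h3 (mem_univ (conj s))
  rw [h5, hg]
  simp

lemma GLf_conj {q κ : ℝ} (hq : 0 < q) (s : ℂ) : GLf q κ (conj s) = conj (GLf q κ s) := by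
  have key : ∀ (x : ℝ) (z : ℂ), 0 < x → (x : ℂ) ^ (conj z) = conj ((x : ℂ) ^ z) := by
    intro x z hx
    have h := Complex.cpow_conj (x : ℂ) z (by
      rw [Complex.arg_ofReal_of_nonneg hx.le]; exact Real.pi_pos.ne)
    rwa [Complex.conj_ofReal] at h
  unfold GLf
  rw [map_mul, Complex.Gammaℝ_def, Complex.Gammaℝ_def, map_mul, ← Complex.Gamma_conj, ← key q _ hq,
    ← key π _ Real.pi_pos]
  have h2 : conj (2:ℂ) = 2 := Complex.conj_ofNat 2
  simp [h2]

lemma LFunction_conj {q : ℕ} [NeZero q] (χ : DirichletCharacter ℂ q) {s : ℂ} (hs : 1 < s.re) :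
    χ.LFunction (conj s) = conj (χ⁻¹.LFunction s) := by
  rw [DirichletCharacter.LFunction_eq_LSeries χ (by simpa using hs),
    DirichletCharacter.LFunction_eq_LSeries χ⁻¹ hs, LSeries, LSeries, Complex.conj_tsum]
  refine tsum_congr fun n => ?_
  rcases Nat.eq_zero_or_pos n with rfl | hn
  · simp
  · rw [LSeries.term_of_ne_zero hn.ne', LSeries.term_of_ne_zero hn.ne', map_div₀]
    congr 1
    · have h1 := MulChar.star_apply' χ⁻¹ (n : ZMod q)
      rw [inv_inv] at h1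
      rw [← h1]
      rfl
    · have h := Complex.cpow_conj (n : ℂ) s (by
        rw [Complex.natCast_arg]; exact Real.pi_pos.ne)
      rwa [Complex.conj_natCast] at h

/-! ### primitive characters -/

section chi

variable (p : PChar)

/-- the conjugate character -/
noncomputable def pinv : PChar where
  q := p.q
  hq := p.hq
  χ := p.χ⁻¹
  prim := by
    rw [DirichletCharacter.isPrimitive_def, DirichletCharacter.conductor_inv]
    exact p.prim
  ne_one := inv_ne_one.2 p.ne_one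

lemma pinv_κ : (pinv p).κ = p.κ := by
  unfold PChar.κ
  have h : (pinv p).χ.Even ↔ p.χ.Even := by
    show p.χ⁻¹.Even ↔ p.χ.Even
    unfold DirichletCharacter.Even
    rw [MulChar.inv_apply_eq_inv', inv_eq_one]
  by_cases h1 : p.χ.Even
  · rw [if_pos h1, if_pos (h.2 h1)]
  · rw [if_neg h1, if_neg (fun h2 => h1 (h.1 h2))]

lemma Lam_conj (s : ℂ) : Lam p.χ (conj s) = conj (Lam p.χ⁻¹ s) := by
  refine conj_of_half p.differentiable_Lam (pinv p).differentiable_Lam (fun s hs => ?_) s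
  have h1 := p.Lam_eq (s := conj s) (by simp; linarith)
  have h2 := (pinv p).Lam_eq (s := s) (by linarith)
  have h3 : Lam (pinv p).χ s = GLf p.q p.κ s * p.χ⁻¹.LFunction s := by
    rw [h2, pinv_κ]; rfl
  rw [h1, h3, map_mul, GLf_conj (by have := p.one_le; linarith), LFunction_conj _ hs]

/-- the functional equation in symmetric form -/
lemma Lam_symm : ∃ c : ℂ, ‖c‖ = 1 ∧ ∀ s, Lam p.χ (1 - conj s) = c * conj (Lam p.χ s) := by
  set c : ℂ := DirichletCharacter.rootNumber p.χ with hc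
  have hq' : (p.q : ℂ) ≠ 0 := by exact_mod_cast p.hq
  have h1 : ∀ s, Lam p.χ (1 - s) = c * Lam p.χ⁻¹ s := by
    intro s
    unfold Lam
    rw [p.prim.completedLFunction_one_sub]
    have e : (p.q : ℂ) ^ ((1 - s) / 2) * (p.q : ℂ) ^ (s - 1/2) = (p.q : ℂ) ^ (s / 2) := by
      rw [← Complex.cpow_add _ _ hq']
      congr 1
      ring
    rw [← e]
    ring
  have h2 : ∀ s, Lam p.χ (1 - conj s) = c * conj (Lam p.χ s) := by
    intro s
    rw [h1]
    have h3 := Lam_conj (pinv p) s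
    have h4 : (pinv p).χ⁻¹ = p.χ := inv_inv p.χ
    rw [h4] at h3
    exact congrArg (c * ·) h3
  refine ⟨c, ?_, h2⟩
  have h3 := h2 (1 - conj 2)
  have e : (1:ℂ) - conj (1 - conj (2:ℂ)) = 2 := by
    have h2 : conj (2:ℂ) = 2 := Complex.conj_ofNat 2
    simp [h2]
  rw [e, h2 2, map_mul, Complex.conj_conj, ← mul_assoc, Complex.mul_conj] at h3
  have h4 : Lam p.χ 2 ≠ 0 := by
    rw [p.Lam_eq (by norm_num)]
    refine mul_ne_zero (GLf_ne_zero (by have := p.one_le; linarith) p.κ_nonneg (by norm_num)) ?_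
    exact DirichletCharacter.LFunction_ne_zero_of_one_le_re p.χ (Or.inl p.ne_one) (by norm_num)
  have h5 : ((Complex.normSq c : ℝ) : ℂ) = 1 := by
    have h6 : (((Complex.normSq c : ℝ) : ℂ) - 1) * Lam p.χ 2 = 0 := by linear_combination -h3
    rcases mul_eq_zero.1 h6 with h7 | h7
    · exact sub_eq_zero.1 h7
    · exact absurd h7 h4
  have h6 : Complex.normSq c = 1 := by exact_mod_cast h5
  rw [Complex.normSq_eq_norm_sq] at h6
  exact (pow_eq_one_iff_of_nonneg (norm_nonneg c) two_ne_zero).1 h6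

theorem Lam_class : GLClass (Lam p.χ) := by
  have hsymm := Lam_symm p
  have hn : ∀ s, ‖Lam p.χ (1 - conj s)‖ = ‖Lam p.χ s‖ := by
    obtain ⟨c, hc, h⟩ := hsymm
    intro s
    rw [h, norm_mul, hc, one_mul, Complex.norm_conj]
  have hlo : ∀ a : ℝ, 1 < a → ∃ c : ℝ, 0 < c ∧ ∀ s : ℂ, a ≤ s.re → c ≤ ‖p.χ.LFunction s‖ :=
    fun a ha => norm_LFunction_ge p.χ ha
  refine ⟨p.differentiable_Lam, hsymm, fun s hs => ?_, ?_, fun K N => ?_⟩
  · rw [p.Lam_eq (by linarith)]
    refine mul_ne_zero (GLf_ne_zero (by have := p.one_le; linarith) p.κ_nonneg (by linarith)) ?_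
    exact DirichletCharacter.LFunction_ne_zero_of_one_le_re p.χ (Or.inl p.ne_one) hs
  · refine grow_of (L := p.χ.LFunction) p.one_le p.κ_nonneg p.κ_le hn
      (fun s hs => p.Lam_eq (by linarith)) ⟨2 * p.q, 1, by positivity, fun s hs => ?_⟩ hlo
    have h1 := norm_LFunction_le p.ne_one (s := s) (by linarith)
    have h2 : (p.q : ℝ) / s.re ≤ 2 * p.q := by
      rw [div_le_iff₀ (by linarith)]
      have := p.one_le
      nlinarith
    have h3 := norm_nonneg s
    calc ‖p.χ.LFunction s‖ ≤ ‖s‖ * (p.q / s.re) := h1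
      _ ≤ (1 + ‖s‖) * (2 * p.q) := by gcongr; linarith
      _ = _ := by ring
  · obtain ⟨c, hc, hlo2⟩ := hlo 2 (by norm_num)
    obtain ⟨x, hx, hx2⟩ := GLf_big p.one_le p.κ_nonneg p.κ_le (K / c) N
    refine ⟨x, by linarith, ?_⟩
    rw [p.Lam_eq (by simp; linarith), norm_mul]
    have h1 := hlo2 x (by simpa using hx)
    have h2 : K * x ^ N < ‖GLf p.q p.κ x‖ * c := by
      rw [div_mul_eq_mul_div, div_lt_iff₀ hc] at hx2
      exact hx2
    exact h2.trans_le (by gcongr)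

end chi

/-- **[GL] for characters**: no derivative of `Λ(s, χ)` vanishes in `Re s ≥ 1` -/
theorem iteratedDeriv_Lam_ne_zero {q : ℕ} [NeZero q] {χ : DirichletCharacter ℂ q}
    (hp : χ.IsPrimitive) (h1 : χ ≠ 1) (k : ℕ) {s : ℂ} (hs : 1 ≤ s.re) :
    iteratedDeriv k (Lam χ) s ≠ 0 :=
  (Lam_class ⟨q, NeZero.ne q, χ, hp, h1⟩).iteratedDeriv_ne_zero k hs

/-! ### the function `ξ` -/

/-- the factor of `ξ` which is not the gamma factor, in `Re s > 0` -/
noncomputable def Lxi (s : ℂ) : ℂ := s * (s + s * (s - 1) * J Z s)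

lemma xi_eq_Lxi {s : ℂ} (hs : 0 < s.re) : xi s = GLf 1 0 s * Lxi s := by
  unfold GLf Lxi
  simp only [Complex.ofReal_one, Complex.one_cpow, one_mul, Complex.ofReal_zero, add_zero]
  by_cases h1 : s = 1
  · subst h1
    have : xi 1 = 1 := by unfold xi; simp
    rw [this]
    simp [Complex.Gammaℝ_one]
  · rw [xi_eq hs h1, ← zeta_eq_J hs h1]
    unfold GXi
    ring

lemma Lxi_eq {s : ℂ} (hs : 1 < s.re) : Lxi s = s * ((s - 1) * riemannZeta s) := by
  have h1 : s ≠ 1 := by rintro rfl; simp at hs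
  unfold Lxi
  rw [zeta_eq_J (by linarith) h1]

lemma zeta_conj {s : ℂ} (hs : 1 < s.re) : riemannZeta (conj s) = conj (riemannZeta s) := by
  have h := LFunction_conj (q := 1) 1 hs
  rwa [inv_one, DirichletCharacter.LFunction_modOne_eq] at h

lemma xi_conj (s : ℂ) : xi (conj s) = conj (xi s) := by
  refine conj_of_half differentiable_xi differentiable_xi (fun s hs => ?_) s
  rw [xi_eq_Lxi (s := conj s) (by simp; linarith), xi_eq_Lxi (s := s) (by linarith), map_mul,
    GLf_conj one_pos, Lxi_eq (s := conj s) (by simpa using hs), Lxi_eq hs, zeta_conj hs]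
  simp

lemma xi_one_sub (s : ℂ) : xi (1 - s) = xi s := by
  unfold xi
  rw [completedRiemannZeta₀_one_sub]
  ring

theorem xi_class : GLClass xi := by
  have hs : ∀ s, xi (1 - conj s) = 1 * conj (xi s) := by
    intro s
    rw [xi_one_sub, xi_conj, one_mul]
  have hn : ∀ s, ‖xi (1 - conj s)‖ = ‖xi s‖ := by
    intro s
    rw [hs, one_mul, Complex.norm_conj]
  have hlo : ∀ a : ℝ, 1 < a → ∃ c : ℝ, 0 < c ∧ ∀ s : ℂ, a ≤ s.re → c ≤ ‖Lxi s‖ := by
    intro a ha
    obtain ⟨c, hc, h⟩ := norm_LFunction_ge (q := 1) 1 ha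
    refine ⟨(a - 1) * c, mul_pos (by linarith) hc, fun s hs => ?_⟩
    have h1 := h s hs
    rw [DirichletCharacter.LFunction_modOne_eq] at h1
    rw [Lxi_eq (by linarith), norm_mul, norm_mul]
    have h2 : a ≤ ‖s‖ := hs.trans (Complex.re_le_norm s)
    have h3 : a - 1 ≤ ‖s - 1‖ := by
      have := Complex.re_le_norm (s - 1)
      simp only [Complex.sub_re, Complex.one_re] at this
      linarith
    calc (a - 1) * c = 1 * ((a - 1) * c) := by ring
      _ ≤ ‖s‖ * (‖s - 1‖ * ‖riemannZeta s‖) := by gcongr <;> linarith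
  refine ⟨differentiable_xi, ⟨1, norm_one, hs⟩, fun s hs => ?_, ?_, fun K N => ?_⟩
  · exact (xi_ne_zero_iff (by linarith)).2 (riemannZeta_ne_zero_of_one_le_re hs)
  · refine grow_of (L := Lxi) (q := 1) (κ := 0) le_rfl le_rfl zero_le_one hn
      (fun s hs => xi_eq_Lxi (by linarith)) ⟨2, 3, by norm_num, fun s hs => ?_⟩ hlo
    have h0 := norm_nonneg s
    have h1 : ‖J Z s‖ ≤ 2 := by
      refine (norm_J_le (B := 1) (fun t ht => norm_Z_le ht) (by linarith)).trans ?_
      rw [div_le_iff₀ (by linarith)]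
      linarith
    have h2 : ‖s - 1‖ ≤ 1 + ‖s‖ := by
      have := norm_sub_le s 1
      rw [norm_one] at this
      linarith
    unfold Lxi
    rw [norm_mul]
    calc ‖s‖ * ‖s + s * (s - 1) * J Z s‖ ≤ ‖s‖ * (‖s‖ + ‖s‖ * (1 + ‖s‖) * 2) := by
          gcongr
          refine (norm_add_le _ _).trans ?_
          gcongr
          rw [norm_mul, norm_mul]
          gcongr
      _ ≤ 2 * (1 + ‖s‖) ^ 3 := by nlinarith [mul_nonneg h0 h0, mul_nonneg (mul_nonneg h0 h0) h0]
  · obtain ⟨c, hc, hlo2⟩ := hlo 2 (by norm_num)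
    obtain ⟨x, hx, hx2⟩ := GLf_big (q := 1) (κ := 0) le_rfl le_rfl zero_le_one (K / c) N
    refine ⟨x, by linarith, ?_⟩
    rw [xi_eq_Lxi (by simp; linarith), norm_mul]
    have h1 := hlo2 x (by simpa using hx)
    have h2 : K * x ^ N < ‖GLf 1 0 x‖ * c := by
      rw [div_mul_eq_mul_div, div_lt_iff₀ hc] at hx2
      exact hx2
    exact h2.trans_le (by gcongr)

/-- **[GL] for `ξ`**: no derivative of `ξ` vanishes in `Re s ≥ 1` -/
theorem iteratedDeriv_xi_ne_zero (k : ℕ) {s : ℂ} (hs : 1 ≤ s.re) : iteratedDeriv k xi s ≠ 0 :=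
  xi_class.iteratedDeriv_ne_zero k hs

end P026.H725
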