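import Mathlib
import Vale.Agent.P026.H725.Digamma

/-!
# Logarithmic derivatives of the gamma factors

For `κ ∈ [0, 1]` and `q ≥ 1` put `aL q κ w = (log q - log π)/2 + ψ((w+κ)/2)/2`.
With `c(q, w) = log (q (|Im w| + 1))`:

* `norm_aL_sub_le` : `‖aL q κ w - c/2‖ ≤ 14` for `1/2 ≤ Re w ≤ 4`.
* `re_aL_ge` : `c/2 - 14 ≤ Re (aL q κ w)` for `1/2 ≤ Re w`.
* `im_aL_nonneg`, `im_aL_ge` : `0 ≤ Im aL` for `Im w ≥ 0`, `1/196 ≤ Im aL` for `Im w ≥ 1`, `Re w ≤ 5`.

and the same for `aXi w = 1/w + 1/(w-1) - log π/2 + ψ(w/2)/2` and `|Im w| ≥ 1` (`≥ 800`).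
-/

open Complex Filter Metric Set MeasureTheory
open scoped Topology Real Nat

namespace P026.H725

/-- The analytic conductor at height `w`: `log (q (|Im w| + 1))`. -/
noncomputable def cq (q : ℝ) (w : ℂ) : ℝ := Real.log (q * (|w.im| + 1))

lemma norm_half_add {w : ℂ} {κ : ℝ} (hκ : 0 ≤ κ) (hw : 1 / 2 ≤ w.re) :
    (|w.im| + 1) / 8 ≤ ‖(w + κ) / 2‖ := by
  have h1 : (1 : ℝ) / 4 ≤ ‖(w + κ) / 2‖ := by
    refine le_trans ?_ (Complex.re_le_norm _)
    have : ((w + κ) / 2).re = (w.re + κ) / 2 := by simp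
    rw [this]
    linarith
  have h2 : |w.im| / 2 ≤ ‖(w + κ) / 2‖ := by
    have h3 := Complex.abs_im_le_norm ((w + κ) / 2)
    have : ((w + κ) / 2).im = w.im / 2 := by simp
    rw [this, abs_div, abs_two] at h3
    exact h3
  linarith

lemma norm_half_add_le {w : ℂ} {κ : ℝ} (hκ : 0 ≤ κ) (hκ1 : κ ≤ 1) (hw : 1 / 2 ≤ w.re)
    (hw4 : w.re ≤ 4) : ‖(w + κ) / 2‖ ≤ 8 * (|w.im| + 1) := by
  refine (Complex.norm_le_abs_re_add_abs_im _).trans ?_
  have h1 : ((w + κ) / 2).re = (w.re + κ) / 2 := by simp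
  have h2 : ((w + κ) / 2).im = w.im / 2 := by simp
  rw [h1, h2, abs_div, abs_div, abs_two, abs_of_nonneg (by linarith : (0 : ℝ) ≤ w.re + κ)]
  have := abs_nonneg w.im
  linarith

lemma log_eight_le : Real.log 8 ≤ 2.1 := by
  have h : Real.log 8 = 3 * Real.log 2 := by
    rw [show (8 : ℝ) = 2 ^ 3 by norm_num, Real.log_pow]
    norm_num
  rw [h]
  have := Real.log_two_lt_d9
  linarith

/-- `‖ψ((w+κ)/2) - log (|Im w| + 1)‖ ≤ 24`. -/
lemma norm_digamma_half_sub_le {w : ℂ} {κ : ℝ} (hκ : 0 ≤ κ) (hκ1 : κ ≤ 1) (hw : 1 / 2 ≤ w.re)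
    (hw4 : w.re ≤ 4) :
    ‖Complex.digamma ((w + κ) / 2) - (Real.log (|w.im| + 1) : ℝ)‖ ≤ 24 := by
  set z : ℂ := (w + κ) / 2 with hz
  have hy : (0 : ℝ) < |w.im| + 1 := by positivity
  have hre : z.re = (w.re + κ) / 2 := by simp [hz]
  have h1 : ‖Complex.digamma z - Complex.log z‖ ≤ 20 :=
    norm_digamma_sub_log_le (by rw [hre]; linarith)
  have hlo := norm_half_add hκ hw
  have hhi := norm_half_add_le hκ hκ1 hw hw4
  rw [← hz] at hlo hhi
  have hz0 : 0 < ‖z‖ := lt_of_lt_of_le (by positivity) hlo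
  have h2 : ‖Complex.log z - (Real.log (|w.im| + 1) : ℝ)‖ ≤ 2.1 + 1.6 := by
    refine (Complex.norm_le_abs_re_add_abs_im _).trans ?_
    rw [Complex.sub_re, Complex.sub_im, Complex.log_re, Complex.log_im, Complex.ofReal_re,
      Complex.ofReal_im, sub_zero]
    refine add_le_add ?_ ?_
    · rw [abs_le]
      have h3 : Real.log ((|w.im| + 1) / 8) ≤ Real.log ‖z‖ :=
        Real.log_le_log (by positivity) hlo
      have h4 : Real.log ‖z‖ ≤ Real.log (8 * (|w.im| + 1)) := Real.log_le_log hz0 hhi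
      rw [Real.log_div hy.ne' (by norm_num)] at h3
      rw [Real.log_mul (by norm_num) hy.ne'] at h4
      have := log_eight_le
      constructor <;> linarith
    · have h5 : |z.arg| ≤ π / 2 := by
        rw [Complex.abs_arg_le_pi_div_two_iff, hre]
        linarith
      have := Real.pi_lt_d2
      linarith
  calc ‖Complex.digamma z - (Real.log (|w.im| + 1) : ℝ)‖
      = ‖(Complex.digamma z - Complex.log z) +
          (Complex.log z - (Real.log (|w.im| + 1) : ℝ))‖ := by congr 1; ring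
    _ ≤ 20 + (2.1 + 1.6) := (norm_add_le _ _).trans (add_le_add h1 h2)
    _ ≤ 24 := by norm_num

/-- `log (|Im w| + 1) - 23 ≤ Re ψ((w+κ)/2)` for `Re w ≥ 1/2`. -/
lemma re_digamma_half_ge {w : ℂ} {κ : ℝ} (hκ : 0 ≤ κ) (hw : 1 / 2 ≤ w.re) :
    Real.log (|w.im| + 1) - 24 ≤ (Complex.digamma ((w + κ) / 2)).re := by
  set z : ℂ := (w + κ) / 2 with hz
  have hy : (0 : ℝ) < |w.im| + 1 := by positivity
  have hre : z.re = (w.re + κ) / 2 := by simp [hz]
  have h1 : ‖Complex.digamma z - Complex.log z‖ ≤ 20 :=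
    norm_digamma_sub_log_le (by rw [hre]; linarith)
  have hlo := norm_half_add hκ hw
  rw [← hz] at hlo
  have h2 := (Complex.abs_re_le_norm _).trans h1
  rw [Complex.sub_re, Complex.log_re, abs_le] at h2
  have h3 : Real.log ((|w.im| + 1) / 8) ≤ Real.log ‖z‖ :=
    Real.log_le_log (by positivity) hlo
  rw [Real.log_div hy.ne' (by norm_num)] at h3
  have := log_eight_le
  linarith [h2.1]

/-- The logarithmic derivative of `q^{s/2} π^{-s/2} Γ((s+κ)/2)`. -/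
noncomputable def aL (q κ : ℝ) (w : ℂ) : ℂ :=
  ((Real.log q : ℝ) - (Real.log π : ℝ)) / 2 + Complex.digamma ((w + κ) / 2) / 2

/-- The logarithmic derivative of `s (s-1) π^{-s/2} Γ(s/2)`. -/
noncomputable def aXi (w : ℂ) : ℂ := w⁻¹ + (w - 1)⁻¹ + aL 1 0 w

lemma log_pi_nonneg : 0 ≤ Real.log π := Real.log_nonneg (by linarith [Real.pi_gt_three])

lemma log_pi_le : Real.log π ≤ 2.1 :=
  (Real.log_le_log Real.pi_pos (by linarith [Real.pi_lt_four] : π ≤ 8)).trans log_eight_le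

theorem norm_aL_sub_le {q κ : ℝ} (hq : 1 ≤ q) (hκ : 0 ≤ κ) (hκ1 : κ ≤ 1) {w : ℂ}
    (hw : 1 / 2 ≤ w.re) (hw4 : w.re ≤ 4) : ‖aL q κ w - (cq q w : ℝ) / 2‖ ≤ 14 := by
  have hy : (0 : ℝ) < |w.im| + 1 := by positivity
  have h1 := norm_digamma_half_sub_le hκ hκ1 hw hw4
  have e : aL q κ w - (cq q w : ℝ) / 2 =
      (Complex.digamma ((w + κ) / 2) - (Real.log (|w.im| + 1) : ℝ)) / 2 +
        -((Real.log π : ℝ) : ℂ) / 2 := by
    unfold aL cq
    rw [Real.log_mul (by linarith) hy.ne']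
    push_cast
    ring
  rw [e]
  refine (norm_add_le _ _).trans ?_
  rw [norm_div, norm_div, norm_neg, Complex.norm_real, Real.norm_eq_abs,
    abs_of_nonneg log_pi_nonneg, Complex.norm_ofNat]
  have := log_pi_le
  linarith

theorem re_aL_ge {q κ : ℝ} (hq : 1 ≤ q) (hκ : 0 ≤ κ) {w : ℂ} (hw : 1 / 2 ≤ w.re) :
    cq q w / 2 - 14 ≤ (aL q κ w).re := by
  have hy : (0 : ℝ) < |w.im| + 1 := by positivity
  have h1 := re_digamma_half_ge hκ hw
  have e : (aL q κ w).re = (Real.log q - Real.log π) / 2 +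
      (Complex.digamma ((w + κ) / 2)).re / 2 := by
    unfold aL
    rw [← Complex.ofReal_sub]
    simp only [Complex.add_re, Complex.div_ofNat_re, Complex.ofReal_re]
  rw [e]
  unfold cq
  rw [Real.log_mul (by linarith) hy.ne']
  have := log_pi_le
  linarith

lemma im_aL (q κ : ℝ) (w : ℂ) : (aL q κ w).im = (Complex.digamma ((w + κ) / 2)).im / 2 := by
  unfold aL
  rw [← Complex.ofReal_sub]
  simp only [Complex.add_im, Complex.div_ofNat_im, Complex.ofReal_im, zero_div, zero_add]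

theorem im_aL_nonneg {q κ : ℝ} (hκ : 0 ≤ κ) {w : ℂ} (hw : 0 < w.re) (hw' : 0 ≤ w.im) :
    0 ≤ (aL q κ w).im := by
  rw [im_aL]
  have h1 : ((w + κ) / 2).re = (w.re + κ) / 2 := by simp
  have h2 : ((w + κ) / 2).im = w.im / 2 := by simp
  have := im_digamma_nonneg (z := (w + κ) / 2) (by rw [h1]; linarith) (by rw [h2]; linarith)
  linarith

theorem im_aL_ge {q κ : ℝ} (hκ : 0 ≤ κ) (hκ1 : κ ≤ 1) {w : ℂ} (hw : 0 < w.re) (hw5 : w.re ≤ 5)
    (hw' : 1 ≤ w.im) : 1 / 196 ≤ (aL q κ w).im := by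
  rw [im_aL]
  have h1 : ((w + κ) / 2).re = (w.re + κ) / 2 := by simp
  have h2 : ((w + κ) / 2).im = w.im / 2 := by simp
  have := im_digamma_ge (z := (w + κ) / 2) (by rw [h1]; linarith) (by rw [h1]; linarith)
    (by rw [h2]; linarith)
  linarith

lemma norm_inv_add_inv_le {w : ℂ} {T : ℝ} (hT : 0 < T) (hw : T ≤ |w.im|) :
    ‖w⁻¹ + (w - 1)⁻¹‖ ≤ 2 / T := by
  have h1 : T ≤ ‖w‖ := hw.trans (Complex.abs_im_le_norm w)
  have h2 : T ≤ ‖w - 1‖ := by
    refine hw.trans ?_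
    have := Complex.abs_im_le_norm (w - 1)
    simpa using this
  refine (norm_add_le _ _).trans ?_
  rw [norm_inv, norm_inv]
  have h3 : ‖w‖⁻¹ ≤ T⁻¹ := inv_anti₀ hT h1
  have h4 : ‖w - 1‖⁻¹ ≤ T⁻¹ := inv_anti₀ hT h2
  rw [div_eq_mul_inv]
  linarith

theorem norm_aXi_sub_le {w : ℂ} (hw : 1 / 2 ≤ w.re) (hw4 : w.re ≤ 4) (hw' : 1 ≤ |w.im|) :
    ‖aXi w - (cq 1 w : ℝ) / 2‖ ≤ 16 := by
  have h1 := norm_aL_sub_le (q := 1) (κ := 0) le_rfl le_rfl zero_le_one hw hw4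
  have h2 := norm_inv_add_inv_le one_pos hw'
  have e : aXi w - (cq 1 w : ℝ) / 2 = (w⁻¹ + (w - 1)⁻¹) + (aL 1 0 w - (cq 1 w : ℝ) / 2) := by
    unfold aXi
    ring
  rw [e]
  refine (norm_add_le _ _).trans ?_
  linarith

theorem re_aXi_ge {w : ℂ} (hw : 1 / 2 ≤ w.re) (hw' : 1 ≤ |w.im|) :
    cq 1 w / 2 - 16 ≤ (aXi w).re := by
  have h1 := re_aL_ge (q := 1) (κ := 0) le_rfl le_rfl hw
  have h2 := (Complex.abs_re_le_norm _).trans (norm_inv_add_inv_le one_pos hw')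
  rw [abs_le] at h2
  have e : (aXi w).re = (w⁻¹ + (w - 1)⁻¹).re + (aL 1 0 w).re := by
    unfold aXi
    rw [Complex.add_re]
  rw [e]
  linarith [h2.1]

theorem im_aXi_ge {w : ℂ} (hw : 0 < w.re) (hw5 : w.re ≤ 5) (hw' : 800 ≤ w.im) :
    1 / 400 ≤ (aXi w).im := by
  have h1 := im_aL_ge (q := 1) (κ := 0) le_rfl zero_le_one hw hw5 (by linarith : 1 ≤ w.im)
  have h2 := (Complex.abs_im_le_norm _).trans
    (norm_inv_add_inv_le (w := w) (T := 800) (by norm_num) (hw'.trans (le_abs_self _)))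
  rw [abs_le] at h2
  have e : (aXi w).im = (w⁻¹ + (w - 1)⁻¹).im + (aL 1 0 w).im := by
    unfold aXi
    rw [Complex.add_im]
  rw [e]
  linarith [h2.1]

/-! ### The gamma factors themselves -/

/-- `Γℝ' / Γℝ`. -/
theorem hasDerivAt_Gammaℝ {s : ℂ} (hs : 0 < s.re) :
    HasDerivAt Complex.Gammaℝ (Complex.Gammaℝ s * aL 1 0 s) s := by
  have hs2 : 0 < (s / 2).re := by
    simp only [Complex.div_ofNat_re]
    linarith
  have hπ : (π : ℂ) ≠ 0 := by exact_mod_cast Real.pi_ne_zero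
  have h1 : HasDerivAt (fun s : ℂ => (π : ℂ) ^ (-s / 2))
      ((π : ℂ) ^ (-s / 2) * Complex.log π * (-1 / 2)) s := by
    have h0 : HasDerivAt (fun s : ℂ => -s / 2) (-1 / 2) s := by
      have := (hasDerivAt_id s).neg.div_const 2
      simpa using this
    exact h0.const_cpow (c := (π : ℂ)) (Or.inl hπ)
  have h2 : HasDerivAt (fun s : ℂ => Complex.Gamma (s / 2))
      (Complex.Gamma (s / 2) * Complex.digamma (s / 2) * (1 / 2)) s := by
    have h0 : HasDerivAt (fun s : ℂ => s / 2) (1 / 2) s := by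
      have := (hasDerivAt_id s).div_const 2
      simpa using this
    have hG : HasDerivAt Complex.Gamma (Complex.Gamma (s / 2) * Complex.digamma (s / 2)) (s / 2) := by
      have h3 : DifferentiableAt ℂ Complex.Gamma (s / 2) :=
        Complex.differentiableAt_Gamma _ fun m => ne_neg_nat hs2 m
      have h4 := h3.hasDerivAt
      have h5 : deriv Complex.Gamma (s / 2) = Complex.Gamma (s / 2) * Complex.digamma (s / 2) := by
        rw [Complex.digamma_def, logDeriv_apply]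
        field_simp [Complex.Gamma_ne_zero_of_re_pos hs2]
      rwa [h5] at h4
    exact hG.comp s h0
  have h3 := h1.mul h2
  refine h3.congr_deriv ?_
  rw [Complex.Gammaℝ_def]
  unfold aL
  rw [Real.log_one, Complex.ofReal_zero, add_zero, Complex.ofReal_log Real.pi_pos.le]
  ring

/-- `q^{s/2} Γℝ(s + κ)` -/
noncomputable def GLf (q κ : ℝ) (s : ℂ) : ℂ := (q : ℂ) ^ (s / 2) * Complex.Gammaℝ (s + κ)

theorem hasDerivAt_GLf {q κ : ℝ} (hq : 0 < q) (hκ : 0 ≤ κ) {s : ℂ} (hs : 0 < s.re) :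
    HasDerivAt (GLf q κ) (GLf q κ s * aL q κ s) s := by
  have hq' : (q : ℂ) ≠ 0 := by exact_mod_cast hq.ne'
  have h1 : HasDerivAt (fun s : ℂ => (q : ℂ) ^ (s / 2))
      ((q : ℂ) ^ (s / 2) * Complex.log q * (1 / 2)) s := by
    have h0 : HasDerivAt (fun s : ℂ => s / 2) (1 / 2) s := by
      have := (hasDerivAt_id s).div_const 2
      simpa using this
    exact h0.const_cpow (c := (q : ℂ)) (Or.inl hq')
  have h2 : HasDerivAt (fun s : ℂ => Complex.Gammaℝ (s + κ))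
      (Complex.Gammaℝ (s + κ) * aL 1 0 (s + κ)) s := by
    have hre : 0 < (s + κ).re := by
      simp only [Complex.add_re, Complex.ofReal_re]
      linarith
    have h0 : HasDerivAt (fun s : ℂ => s + κ) 1 s := (hasDerivAt_id s).add_const _
    have := (hasDerivAt_Gammaℝ hre).comp s h0
    rw [mul_one] at this
    exact this
  refine (h1.mul h2).congr_deriv ?_
  unfold GLf aL
  rw [Real.log_one, Complex.ofReal_zero, add_zero, Complex.ofReal_log hq.le]
  ring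

theorem GLf_ne_zero {q κ : ℝ} (hq : 0 < q) (hκ : 0 ≤ κ) {s : ℂ} (hs : 0 < s.re) :
    GLf q κ s ≠ 0 := by
  have hq' : (q : ℂ) ≠ 0 := by exact_mod_cast hq.ne'
  refine mul_ne_zero ?_ ?_
  · rw [Complex.cpow_def_of_ne_zero hq']
    exact Complex.exp_ne_zero _
  · refine Complex.Gammaℝ_ne_zero_of_re_pos ?_
    simp only [Complex.add_re, Complex.ofReal_re]
    linarith

/-- `s (s-1) Γℝ(s)` -/
noncomputable def GXi (s : ℂ) : ℂ := s * (s - 1) * Complex.Gammaℝ s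

theorem hasDerivAt_GXi {s : ℂ} (hs : 0 < s.re) (hs1 : s ≠ 1) :
    HasDerivAt GXi (GXi s * aXi s) s := by
  have h0 : s ≠ 0 := by
    rintro rfl
    simp at hs
  have h1 : s - 1 ≠ 0 := sub_ne_zero.mpr hs1
  have h2 : HasDerivAt (fun s : ℂ => s * (s - 1)) (1 * (s - 1) + s * 1) s :=
    (hasDerivAt_id s).mul ((hasDerivAt_id s).sub_const 1)
  refine (h2.mul (hasDerivAt_Gammaℝ hs)).congr_deriv ?_
  unfold GXi aXi
  field_simp

theorem GXi_ne_zero {s : ℂ} (hs : 0 < s.re) (hs1 : s ≠ 1) : GXi s ≠ 0 := by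
  have h0 : s ≠ 0 := by
    rintro rfl
    simp at hs
  exact mul_ne_zero (mul_ne_zero h0 (sub_ne_zero.mpr hs1))
    (Complex.Gammaℝ_ne_zero_of_re_pos hs)

end P026.H725
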