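import Mathlib

/-!
# Growth bounds for Dirichlet L-functions and the Riemann zeta function

* `P026.H725.norm_LFunction_le` : `‖L(s, χ)‖ ≤ ‖s‖ (q / Re s)`, `χ ≠ 1`, `Re s > 0`.
* `P026.H725.norm_LFunction_le_half` : `‖L(s, χ)‖ ≤ 8 q (|Im s| + 1)` for `1/2 ≤ Re s ≤ 4`.
* `P026.H725.norm_zeta_le_half` : `‖ζ(s)‖ ≤ 10 (|Im s| + 1)` for `1/2 ≤ Re s ≤ 4`, `|Im s| ≥ 1`.
* `P026.H725.norm_LFunction_sub_one_le` : `‖L(s, χ) - 1‖ ≤ 13/20` for `Re s ≥ 2`, every `χ`.
* `P026.H725.norm_LFunction_le_tsum` : `‖L(s, χ)‖ ≤ ζ(3/2)` for `Re s ≥ 3/2`, every `χ`.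
* `P026.H725.norm_zeta_sub_one_le`, `P026.H725.norm_zeta_le_tsum` : the same for `ζ`.
-/

open Complex Filter Set MeasureTheory Asymptotics Finset
open scoped Topology Real Nat

namespace P026.H725

/-! ### Mellin transforms of bounded functions supported on `(1, ∞)` -/

/-- `∫_1^∞ g(t) t^{-s-1} dt` as a Mellin transform. -/
noncomputable def J (g : ℝ → ℂ) (s : ℂ) : ℂ := mellin ((Set.Ioi (1 : ℝ)).indicator g) (-s)

lemma J_eq_integral (g : ℝ → ℂ) (s : ℂ) :
    J g s = ∫ t in Set.Ioi (1 : ℝ), g t * (t : ℂ) ^ (-(s + 1)) := by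
  rw [J, mellin]
  have h1 : ∀ t : ℝ, (t : ℂ) ^ (-s - 1) • (Set.Ioi (1 : ℝ)).indicator g t =
      (Set.Ioi (1 : ℝ)).indicator (fun t : ℝ => g t * (t : ℂ) ^ (-(s + 1))) t := by
    intro t
    by_cases h : t ∈ Set.Ioi (1 : ℝ)
    · rw [Set.indicator_of_mem h, Set.indicator_of_mem h, smul_eq_mul, mul_comm]
      congr 2
      ring
    · rw [Set.indicator_of_notMem h, Set.indicator_of_notMem h, smul_zero]
  simp_rw [h1]
  rw [setIntegral_indicator measurableSet_Ioi]
  congr 2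
  ext t
  simp only [Set.mem_inter_iff, Set.mem_Ioi]
  constructor
  · exact fun h => h.2
  · exact fun h => ⟨by linarith, h⟩

lemma norm_indicator_le {g : ℝ → ℂ} {B : ℝ} (hB : 0 ≤ B) (hg : ∀ t, 1 < t → ‖g t‖ ≤ B) (t : ℝ) :
    ‖(Set.Ioi (1 : ℝ)).indicator g t‖ ≤ B := by
  by_cases h : t ∈ Set.Ioi (1 : ℝ)
  · rw [Set.indicator_of_mem h]; exact hg t h
  · rw [Set.indicator_of_notMem h, norm_zero]; exact hB

lemma J_differentiableAt {g : ℝ → ℂ} (hm : Measurable g) {B : ℝ} (hB : 0 ≤ B)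
    (hg : ∀ t, 1 < t → ‖g t‖ ≤ B) {s : ℂ} (hs : 0 < s.re) : DifferentiableAt ℂ (J g) s := by
  have h1 : DifferentiableAt ℂ (mellin ((Set.Ioi (1 : ℝ)).indicator g)) (-s) := by
    have hs' : (-s).re < 0 := by simpa using hs
    refine mellin_differentiableAt_of_isBigO_rpow (a := 0) (b := (-s).re - 1) ?_ ?_ hs' ?_
      (by linarith)
    · refine (MeasureTheory.locallyIntegrable_const (μ := volume) (B : ℝ)).mono
        (hm.indicator measurableSet_Ioi).aestronglyMeasurable ?_ |>.locallyIntegrableOn _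
      refine Eventually.of_forall fun t => ?_
      rw [Real.norm_eq_abs, abs_of_nonneg hB]
      exact norm_indicator_le hB hg t
    · refine IsBigO.of_bound B ?_
      filter_upwards with t
      simpa using norm_indicator_le hB hg t
    · refine IsBigO.of_bound 1 ?_
      have : ∀ᶠ t : ℝ in 𝓝[>] 0, t < 1 :=
        eventually_nhdsWithin_of_eventually_nhds (eventually_lt_nhds one_pos)
      filter_upwards [this] with t ht
      have : (Set.Ioi (1 : ℝ)).indicator g t = 0 :=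
        Set.indicator_of_notMem (by simpa using ht.le) _
      rw [this, norm_zero]
      positivity
  exact h1.comp s (differentiableAt_id.neg)

lemma norm_J_le {g : ℝ → ℂ} {B : ℝ} (hg : ∀ t, 1 < t → ‖g t‖ ≤ B) {s : ℂ}
    (hs : 0 < s.re) : ‖J g s‖ ≤ B / s.re := by
  rw [J_eq_integral]
  have hint : IntegrableOn (fun t : ℝ => B * t ^ (-(s.re + 1))) (Set.Ioi 1) :=
    (integrableOn_Ioi_rpow_of_lt (by linarith) one_pos).const_mul _
  calc ‖∫ t in Set.Ioi (1 : ℝ), g t * (t : ℂ) ^ (-(s + 1))‖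
      ≤ ∫ t in Set.Ioi (1 : ℝ), B * t ^ (-(s.re + 1)) := by
        refine norm_integral_le_of_norm_le hint ?_
        filter_upwards [ae_restrict_mem measurableSet_Ioi] with t ht
        have ht0 : 0 < t := lt_trans one_pos ht
        rw [norm_mul, Complex.norm_cpow_eq_rpow_re_of_pos ht0]
        have e : (-(s + 1)).re = -(s.re + 1) := by simp
        rw [e]
        exact mul_le_mul_of_nonneg_right (hg t ht)
          (Real.rpow_nonneg (lt_trans one_pos ht).le _)
    _ = B / s.re := by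
        rw [integral_const_mul, integral_Ioi_rpow_of_lt (by linarith) one_pos]
        simp
        field_simp

/-! ### Character sums -/

variable {q : ℕ}

lemma sum_range_zmod [NeZero q] (f : ZMod q → ℂ) :
    ∑ k ∈ range q, f (k : ZMod q) = ∑ a, f a := by
  obtain ⟨m, rfl⟩ : ∃ m, q = m + 1 := Nat.exists_eq_succ_of_ne_zero (NeZero.ne q)
  rw [Finset.sum_range]
  refine Fintype.sum_congr _ _ fun a => ?_
  congr 1
  exact Fin.cast_val_eq_self a

lemma sum_period [NeZero q] {χ : DirichletCharacter ℂ q} (hχ : χ ≠ 1) (m : ℕ) :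
    ∑ k ∈ range q, χ ((m + k : ℕ) : ZMod q) = 0 := by
  have h := sum_range_zmod (q := q) (fun a => χ ((m : ZMod q) + a))
  simp only [← Nat.cast_add] at h
  rw [h, show (∑ a, χ ((m : ZMod q) + a)) = ∑ a, χ a from
    Equiv.sum_comp (Equiv.addLeft (m : ZMod q)) (fun a => χ a)]
  exact MulChar.sum_eq_zero_of_ne_one hχ

lemma sum_blocks [NeZero q] {χ : DirichletCharacter ℂ q} (hχ : χ ≠ 1) (m j : ℕ) :
    ∑ k ∈ range (q * j), χ ((m + k : ℕ) : ZMod q) = 0 := by
  induction j with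
  | zero => simp
  | succ j ih =>
    rw [Nat.mul_succ, Finset.sum_range_add, ih, zero_add]
    have := sum_period hχ (m + q * j)
    simpa [add_assoc] using this

lemma norm_sum_range_le [NeZero q] {χ : DirichletCharacter ℂ q} (hχ : χ ≠ 1) (m n : ℕ) :
    ‖∑ k ∈ range n, χ ((m + k : ℕ) : ZMod q)‖ ≤ q := by
  conv_lhs => rw [← Nat.div_add_mod n q]
  rw [Finset.sum_range_add, sum_blocks hχ, zero_add]
  refine (norm_sum_le _ _).trans ?_
  calc ∑ x ∈ range (n % q), ‖χ ((m + (q * (n / q) + x) : ℕ) : ZMod q)‖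
      ≤ ∑ x ∈ range (n % q), (1 : ℝ) :=
        Finset.sum_le_sum fun _ _ => DirichletCharacter.norm_le_one χ _
    _ = (n % q : ℕ) := by simp
    _ ≤ q := by exact_mod_cast (Nat.mod_lt _ (Nat.pos_of_ne_zero (NeZero.ne q))).le

/-- the character sum -/
noncomputable def S (χ : DirichletCharacter ℂ q) (t : ℝ) : ℂ := ∑ k ∈ Icc 1 ⌊t⌋₊, χ (k : ZMod q)

lemma S_eq_range (χ : DirichletCharacter ℂ q) (n : ℕ) :
    ∑ k ∈ Icc 1 n, χ (k : ZMod q) = ∑ k ∈ range n, χ ((1 + k : ℕ) : ZMod q) := by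
  rw [Finset.range_eq_Ico, Finset.sum_Ico_add (fun k : ℕ => χ (k : ZMod q)) 0 n 1]
  congr 1

lemma norm_S_le [NeZero q] {χ : DirichletCharacter ℂ q} (hχ : χ ≠ 1) (t : ℝ) :
    ‖S χ t‖ ≤ q := by
  rw [S, S_eq_range]
  exact norm_sum_range_le hχ 1 _

lemma measurable_S (χ : DirichletCharacter ℂ q) : Measurable (S χ) :=
  (measurable_from_nat (f := fun n : ℕ => ∑ k ∈ Icc 1 n, χ (k : ZMod q))).comp Nat.measurable_floor

lemma isOpen_rePos : IsOpen {s : ℂ | 0 < s.re} := continuous_re.isOpen_preimage _ isOpen_Ioi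

/-- integral representation of `L(s, χ)` for `Re s > 0` -/
theorem LFunction_eq_J [NeZero q] {χ : DirichletCharacter ℂ q} (hχ : χ ≠ 1) {s : ℂ}
    (hs : 0 < s.re) :
    DirichletCharacter.LFunction χ s = s * J (S χ) s := by
  have hA : AnalyticOnNhd ℂ (DirichletCharacter.LFunction χ) {s : ℂ | 0 < s.re} :=
    (DirichletCharacter.differentiable_LFunction hχ).differentiableOn.analyticOnNhd isOpen_rePos
  have hB : AnalyticOnNhd ℂ (fun s => s * J (S χ) s) {s : ℂ | 0 < s.re} := by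
    refine DifferentiableOn.analyticOnNhd (fun s hs => ?_) isOpen_rePos
    have h2 : DifferentiableAt ℂ (J (S χ)) s :=
      J_differentiableAt (measurable_S χ) (B := q) (by positivity) (fun t _ => norm_S_le hχ t) hs
    exact (differentiableAt_id.mul h2).differentiableWithinAt
  have hpc : IsPreconnected {s : ℂ | 0 < s.re} := (convex_halfSpace_re_gt 0).isPreconnected
  refine hA.eqOn_of_preconnected_of_eventuallyEq hB hpc (z₀ := 2) (by simp) ?_ hs
  have h2 : {s : ℂ | 1 < s.re} ∈ 𝓝 (2 : ℂ) :=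
    (continuous_re.isOpen_preimage _ isOpen_Ioi).mem_nhds (by simp)
  filter_upwards [h2] with z hz
  have hz' : 1 < z.re := hz
  rw [J_eq_integral, DirichletCharacter.LFunction_eq_LSeries χ hz']
  refine LSeries_eq_mul_integral (r := 0) _ le_rfl (by linarith)
    (DirichletCharacter.LSeriesSummable_of_one_lt_re χ hz') ?_
  refine IsBigO.of_bound q ?_
  filter_upwards with n
  have := norm_S_le hχ (n : ℝ)
  simpa [S] using this

/-- `|L(s, χ)| ≤ |s| q / Re s` for `Re s > 0` -/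
theorem norm_LFunction_le [NeZero q] {χ : DirichletCharacter ℂ q} (hχ : χ ≠ 1) {s : ℂ}
    (hs : 0 < s.re) :
    ‖DirichletCharacter.LFunction χ s‖ ≤ ‖s‖ * (q / s.re) := by
  rw [LFunction_eq_J hχ hs, norm_mul]
  exact mul_le_mul_of_nonneg_left
    (norm_J_le (fun t _ => norm_S_le hχ t) hs) (norm_nonneg _)

/-- `|L(s, χ)| ≤ 8 q (|Im s| + 1)` for `1/2 ≤ Re s ≤ 4`. -/
theorem norm_LFunction_le_half [NeZero q] {χ : DirichletCharacter ℂ q} (hχ : χ ≠ 1) {s : ℂ}
    (hs : 1 / 2 ≤ s.re) (hs4 : s.re ≤ 4) :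
    ‖DirichletCharacter.LFunction χ s‖ ≤ 8 * q * (|s.im| + 1) := by
  refine (norm_LFunction_le hχ (by linarith)).trans ?_
  have h1 : ‖s‖ ≤ 4 * (|s.im| + 1) := by
    refine (Complex.norm_le_abs_re_add_abs_im s).trans ?_
    rw [abs_of_nonneg (by linarith : (0 : ℝ) ≤ s.re)]
    have := abs_nonneg s.im
    linarith
  have h2 : (q : ℝ) / s.re ≤ 2 * q := by
    rw [div_le_iff₀ (by linarith)]
    have : (0 : ℝ) ≤ q := by positivity
    nlinarith
  calc ‖s‖ * (q / s.re) ≤ (4 * (|s.im| + 1)) * (2 * q) := by gcongr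
    _ = 8 * q * (|s.im| + 1) := by ring

/-! ### The zeta function -/

/-- `⌊t⌋ - t` -/
noncomputable def Z (t : ℝ) : ℂ := ((⌊t⌋₊ : ℕ) : ℂ) - t

lemma norm_Z_le {t : ℝ} (ht : 1 < t) : ‖Z t‖ ≤ 1 := by
  have h1 : Z t = (((⌊t⌋₊ : ℝ) - t : ℝ) : ℂ) := by simp [Z]
  rw [h1, Complex.norm_real, Real.norm_eq_abs, abs_le]
  have h2 := Nat.floor_le (by linarith : (0 : ℝ) ≤ t)
  have h3 := Nat.lt_floor_add_one t
  constructor <;> linarith

lemma measurable_Z : Measurable Z := by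
  unfold Z
  refine Measurable.sub ?_ Complex.measurable_ofReal
  exact (measurable_from_nat (f := fun n : ℕ => (n : ℂ))).comp Nat.measurable_floor

/-- `ζ(s) = s/(s-1) + s ∫_1^∞ (⌊t⌋ - t) t^{-s-1} dt` for `Re s > 1` -/
lemma zeta_eq_of_one_lt {s : ℂ} (hs : 1 < s.re) :
    riemannZeta s = s / (s - 1) + s * J Z s := by
  have h0 : s - 1 ≠ 0 := by
    intro h
    rw [sub_eq_zero.mp h] at hs
    simp at hs
  have h1 : LSeries 1 s = s * ∫ t in Set.Ioi (1 : ℝ),
      (∑ k ∈ Icc 1 ⌊t⌋₊, (1 : ℕ → ℂ) k) * (t : ℂ) ^ (-(s + 1)) := by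
    refine LSeries_eq_mul_integral (r := 1) _ zero_le_one hs
      (LSeriesSummable_one_iff.mpr hs) ?_
    refine IsBigO.of_bound 1 ?_
    filter_upwards with n
    simp
  rw [← LSeries_one_eq_riemannZeta hs, h1, J_eq_integral]
  have h2 : ∀ t ∈ Set.Ioi (1 : ℝ), (∑ k ∈ Icc 1 ⌊t⌋₊, (1 : ℕ → ℂ) k) * (t : ℂ) ^ (-(s + 1)) =
      Z t * (t : ℂ) ^ (-(s + 1)) + (t : ℂ) ^ (-s) := by
    intro t ht
    have ht0 : (0 : ℝ) < t := lt_trans one_pos ht
    have ht' : (t : ℂ) ≠ 0 := by exact_mod_cast ht0.ne'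
    have e : (t : ℂ) ^ (-s) = (t : ℂ) * (t : ℂ) ^ (-(s + 1)) := by
      have : -s = 1 + -(s + 1) := by ring
      conv_lhs => rw [this, Complex.cpow_add _ _ ht', Complex.cpow_one]
    rw [e]
    simp [Z]
    ring
  rw [setIntegral_congr_fun measurableSet_Ioi h2, integral_add]
  · rw [integral_Ioi_cpow_of_lt (by simpa using hs) one_pos]
    have h3 : -s + 1 ≠ 0 := by
      intro h
      apply h0
      linear_combination -h
    simp only [Complex.ofReal_one, Complex.one_cpow]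
    field_simp
    ring
  · have hint : IntegrableOn (fun t : ℝ => t ^ (-(s.re + 1))) (Set.Ioi 1) :=
      (integrableOn_Ioi_rpow_of_lt (by linarith) one_pos)
    refine Integrable.mono' hint ?_ ?_
    · refine AEStronglyMeasurable.mul measurable_Z.aestronglyMeasurable ?_
      refine ContinuousOn.aestronglyMeasurable ?_ measurableSet_Ioi
      intro t ht
      refine ContinuousAt.continuousWithinAt ?_
      have ht0 : (0 : ℝ) < t := lt_trans one_pos ht
      exact Complex.continuousAt_ofReal_cpow_const _ _ (Or.inr ht0.ne')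
    · filter_upwards [ae_restrict_mem measurableSet_Ioi] with t ht
      have ht0 : 0 < t := lt_trans one_pos ht
      rw [norm_mul, Complex.norm_cpow_eq_rpow_re_of_pos ht0]
      have e : (-(s + 1)).re = -(s.re + 1) := by simp
      rw [e]
      calc ‖Z t‖ * t ^ (-(s.re + 1)) ≤ 1 * t ^ (-(s.re + 1)) :=
            mul_le_mul_of_nonneg_right (norm_Z_le ht) (Real.rpow_nonneg ht0.le _)
        _ = _ := one_mul _
  · exact integrableOn_Ioi_cpow_of_lt (by simpa using hs) one_pos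

/-- `(s-1) ζ(s) = s + s (s-1) ∫_1^∞ (⌊t⌋ - t) t^{-s-1} dt` for `Re s > 0`, `s ≠ 1` -/
theorem zeta_eq_J {s : ℂ} (hs : 0 < s.re) (hs1 : s ≠ 1) :
    (s - 1) * riemannZeta s = s + s * (s - 1) * J Z s := by
  -- `(s-1) ζ(s)` extended by `1` at `s = 1`
  set f : ℂ → ℂ := Function.update (fun s => (s - 1) * riemannZeta s) 1 1 with hf
  have hfd : Differentiable ℂ f := by
    have h1 : DifferentiableOn ℂ f {1}ᶜ := by
      have h2 : DifferentiableOn ℂ (fun s => (s - 1) * riemannZeta s) {1}ᶜ := fun z hz =>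
        ((differentiableAt_id.sub_const 1).mul
          (differentiableAt_riemannZeta hz)).differentiableWithinAt
      refine h2.congr fun z hz => ?_
      rw [hf, Function.update_of_ne hz]
    have h3 : ContinuousAt f 1 := by
      rw [hf, continuousAt_update_same]
      exact riemannZeta_residue_one
    have h4 := (Complex.differentiableOn_compl_singleton_and_continuousAt_iff
      (s := Set.univ) (c := (1 : ℂ)) Filter.univ_mem).mp
        ⟨by rw [← Set.compl_eq_univ_sdiff]; exact h1, h3⟩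
    exact differentiableOn_univ.mp h4
  have hA : AnalyticOnNhd ℂ f {s : ℂ | 0 < s.re} :=
    hfd.differentiableOn.analyticOnNhd isOpen_rePos
  have hB : AnalyticOnNhd ℂ (fun s => s + s * (s - 1) * J Z s) {s : ℂ | 0 < s.re} := by
    refine DifferentiableOn.analyticOnNhd (fun s hs => ?_) isOpen_rePos
    have h2 : DifferentiableAt ℂ (J Z) s :=
      J_differentiableAt measurable_Z (B := 1) zero_le_one (fun t ht => norm_Z_le ht) hs
    exact (differentiableAt_id.add ((differentiableAt_id.mul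
      (differentiableAt_id.sub_const 1)).mul h2)).differentiableWithinAt
  have hpc : IsPreconnected {s : ℂ | 0 < s.re} := (convex_halfSpace_re_gt 0).isPreconnected
  have key := hA.eqOn_of_preconnected_of_eventuallyEq hB hpc (z₀ := 2) (by simp) ?_ hs
  · rw [hf, Function.update_of_ne hs1] at key
    exact key
  · have h2 : {s : ℂ | 1 < s.re} ∈ 𝓝 (2 : ℂ) :=
      (continuous_re.isOpen_preimage _ isOpen_Ioi).mem_nhds (by simp)
    filter_upwards [h2] with z hz
    have hz' : 1 < z.re := hz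
    have hz1 : z ≠ 1 := by
      rintro rfl
      simp at hz'
    have h0 : z - 1 ≠ 0 := sub_ne_zero.mpr hz1
    rw [hf, Function.update_of_ne hz1, zeta_eq_of_one_lt hz']
    field_simp

/-- `|ζ(s) - 1/(s-1)| ≤ 1 + |s| / Re s`. -/
theorem norm_zeta_sub_le {s : ℂ} (hs : 0 < s.re) (hs1 : s ≠ 1) :
    ‖riemannZeta s - 1 / (s - 1)‖ ≤ 1 + ‖s‖ / s.re := by
  have h0 : s - 1 ≠ 0 := sub_ne_zero.mpr hs1
  have h1 : riemannZeta s - 1 / (s - 1) = 1 + s * J Z s := by
    have := zeta_eq_J hs hs1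
    field_simp
    linear_combination this
  rw [h1]
  refine (norm_add_le _ _).trans ?_
  rw [norm_one, norm_mul]
  have h2 := norm_J_le (fun t ht => norm_Z_le ht) hs
  have h3 : ‖s‖ * ‖J Z s‖ ≤ ‖s‖ * (1 / s.re) := mul_le_mul_of_nonneg_left h2 (norm_nonneg _)
  rw [mul_one_div] at h3
  linarith

/-- `|ζ(s)| ≤ 10 (|Im s| + 1)` for `1/2 ≤ Re s ≤ 4`, `|Im s| ≥ 1`. -/
theorem norm_zeta_le_half {s : ℂ} (hs : 1 / 2 ≤ s.re) (hs4 : s.re ≤ 4) (him : 1 ≤ |s.im|) :
    ‖riemannZeta s‖ ≤ 10 * (|s.im| + 1) := by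
  have hs1 : s ≠ 1 := by
    rintro rfl
    simp at him
    linarith
  have h1 := norm_zeta_sub_le (by linarith : 0 < s.re) hs1
  have h2 : ‖s‖ ≤ 4 * (|s.im| + 1) := by
    refine (Complex.norm_le_abs_re_add_abs_im s).trans ?_
    rw [abs_of_nonneg (by linarith : (0 : ℝ) ≤ s.re)]
    have := abs_nonneg s.im
    linarith
  have h3 : ‖s‖ / s.re ≤ 2 * ‖s‖ := by
    rw [div_le_iff₀ (by linarith)]
    have := norm_nonneg s
    nlinarith
  have h4 : ‖1 / (s - 1)‖ ≤ 1 := by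
    rw [norm_div, norm_one]
    have : 1 ≤ ‖s - 1‖ := by
      refine him.trans ?_
      have := Complex.abs_im_le_norm (s - 1)
      simpa using this
    rw [div_le_one (by linarith)]
    exact this
  have h5 : riemannZeta s = (riemannZeta s - 1 / (s - 1)) + 1 / (s - 1) := by ring
  rw [h5]
  refine (norm_add_le _ _).trans ?_
  have := abs_nonneg s.im
  linarith

/-! ### The half plane of absolute convergence -/

lemma norm_term_le (χ : DirichletCharacter ℂ q) {s : ℂ} {a : ℝ} (hs : a ≤ s.re) (n : ℕ) :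
    ‖LSeries.term (fun n => χ (n : ZMod q)) s n‖ ≤ 1 / (n : ℝ) ^ a := by
  rcases Nat.eq_zero_or_pos n with rfl | hn
  · rw [LSeries.term_zero, norm_zero]
    positivity
  · rw [LSeries.norm_term_eq, if_neg hn.ne']
    have h1 : (1 : ℝ) ≤ n := by exact_mod_cast hn
    have h2 : (n : ℝ) ^ a ≤ (n : ℝ) ^ s.re := Real.rpow_le_rpow_of_exponent_le h1 hs
    have h3 : 0 < (n : ℝ) ^ a := by positivity
    gcongr
    exact DirichletCharacter.norm_le_one χ _

/-- `‖L(s, χ) - 1‖ ≤ 13/20` for `Re s ≥ 2`. -/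
theorem norm_LFunction_sub_one_le [NeZero q] (χ : DirichletCharacter ℂ q) {s : ℂ}
    (hs : 2 ≤ s.re) : ‖DirichletCharacter.LFunction χ s - 1‖ ≤ 13 / 20 := by
  have hs1 : 1 < s.re := by linarith
  rw [DirichletCharacter.LFunction_eq_LSeries χ hs1]
  have hsum : Summable (fun n => LSeries.term (fun n => χ (n : ZMod q)) s n) :=
    DirichletCharacter.LSeriesSummable_of_one_lt_re χ hs1
  have h2 : HasSum (fun n : ℕ => 1 / (n : ℝ) ^ (2 : ℝ)) (π ^ 2 / 6) := by
    have := hasSum_zeta_two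
    refine this.congr_fun ?_ |> fun h => h
    intro n
    norm_num
  have e1 : LSeries (fun n => χ (n : ZMod q)) s =
      1 + ∑' n : ℕ, LSeries.term (fun n => χ (n : ZMod q)) s (n + 2) := by
    rw [LSeries, ← hsum.sum_add_tsum_nat_add 2]
    congr 1
    simp [Finset.sum_range_succ, LSeries.term]
  have e2 : (π ^ 2 / 6 : ℝ) = 1 + ∑' n : ℕ, 1 / ((n + 2 : ℕ) : ℝ) ^ (2 : ℝ) := by
    rw [← h2.tsum_eq, ← h2.summable.sum_add_tsum_nat_add 2]
    congr 1
    simp [Finset.sum_range_succ]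
  rw [e1, add_sub_cancel_left]
  have hsum2 : Summable (fun n : ℕ => 1 / ((n + 2 : ℕ) : ℝ) ^ (2 : ℝ)) :=
    (summable_nat_add_iff 2).mpr h2.summable
  have h3 : ‖∑' n : ℕ, LSeries.term (fun n => χ (n : ZMod q)) s (n + 2)‖ ≤
      ∑' n : ℕ, 1 / ((n + 2 : ℕ) : ℝ) ^ (2 : ℝ) :=
    tsum_of_norm_bounded hsum2.hasSum fun n => norm_term_le χ hs (n + 2)
  refine h3.trans ?_
  have h4 : π ^ 2 / 6 ≤ 1.65 := by
    have := Real.pi_lt_d4
    have := Real.pi_pos
    nlinarith
  linarith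

/-- `‖L(s, χ)‖ ≤ ζ(3/2)` for `Re s ≥ 3/2`. -/
theorem norm_LFunction_le_tsum [NeZero q] (χ : DirichletCharacter ℂ q) {s : ℂ}
    (hs : 3 / 2 ≤ s.re) :
    ‖DirichletCharacter.LFunction χ s‖ ≤ ∑' n : ℕ, 1 / (n : ℝ) ^ (3 / 2 : ℝ) := by
  have hs1 : 1 < s.re := by linarith
  rw [DirichletCharacter.LFunction_eq_LSeries χ hs1]
  have hsum2 : Summable (fun n : ℕ => 1 / (n : ℝ) ^ (3 / 2 : ℝ)) :=
    Real.summable_one_div_nat_rpow.mpr (by norm_num)
  exact tsum_of_norm_bounded hsum2.hasSum fun n => norm_term_le χ hs n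

theorem norm_zeta_sub_one_le {s : ℂ} (hs : 2 ≤ s.re) : ‖riemannZeta s - 1‖ ≤ 13 / 20 := by
  have := norm_LFunction_sub_one_le (q := 1) 1 hs
  rwa [DirichletCharacter.LFunction_modOne_eq] at this

theorem norm_zeta_le_tsum {s : ℂ} (hs : 3 / 2 ≤ s.re) :
    ‖riemannZeta s‖ ≤ ∑' n : ℕ, 1 / (n : ℝ) ^ (3 / 2 : ℝ) := by
  have := norm_LFunction_le_tsum (q := 1) 1 hs
  rwa [DirichletCharacter.LFunction_modOne_eq] at this

end P026.H725
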